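import Vale.Agent.P049.TS.T34.RateT4

/-!
The rate lemma for the potential `f3` (phases I and II).
-/

set_option linter.unusedSectionVars false
set_option exponentiation.threshold 3000

namespace Vale.Agent.P049.TS.T34

open Matrix Finset Vale.Agent.P049.TS.Asm

section
variable (b t s v w x a1 e H lam cw p377 p384 p683 p1000 dd D dl : Ex)

def tilt3E : Ex := lam * (b ^ 5 + cw * b ^ 3 + t * b ^ 2 + cw * t) + 9 * lam * v * (b ^ 4 + b ^ 2) +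
  rbsE s lam dd * (b ^ 4 + t ^ 2)

def G3E : Ex :=
  dl * (12 * (5 * dd * p384 * (b ^ 4 + t ^ 2)) + 12 * (D * (3 * dd * p1000 + 5 * dd * p384)) +
    12 * tilt3E b t s v lam cw dd + err3E b t s v w x a1 e H) + 3 * sd3E b t s v w x a1 ^ 2
end

abbrev g3 : Ex := G3E (.v 0) (.v 1) (.v 2) (.v 3) (.v 4) (.v 5) (.v 6) (.v 7) (.v 8) (.v 9) (.v 10)
  (.v 12) (.v 14) (.v 15) (.v 16) (.v 17)

theorem g3_I1 : g3.y zI1 ≤ 10804 := by decide
theorem g3_I2 : g3.y zI2 ≤ 11600 := by decide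
theorem g3_II1 : g3.y zII1 ≤ 10736 := by decide
theorem g3_II2 : g3.y zII2 ≤ 11148 := by decide

section
variable (b t s v w x a1 e H lam cw p377 p384 p683 p1000 dd D dl : ℝ)

/-- real form of the tilt bound -/
def tilt3 : ℝ := lam * (b ^ 5 + cw * b ^ 3 + t * b ^ 2 + cw * t) + 9 * lam * v * (b ^ 4 + b ^ 2) +
  Tilt.rbs lam dd s * (b ^ 4 + t ^ 2)

theorem g3_ev : g3.ev (en b t s v w x a1 e H lam cw p377 p384 p683 p1000 dd D dl) =
    2 * dl * (6 * (5 * dd * p384 * (b ^ 4 + t ^ 2)) + 6 * (D * (3 * dd * p1000 + 5 * dd * p384)) +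
      6 * tilt3 b t s v lam cw dd + err3 b t s v w x a1 e H) +
    2 * (3 / 2 * sd3 b t s v w x a1 ^ 2) := by
  have h := err3_ev b t s v w x a1 e H
  have h2 := sd3_ev b t s v w x a1 e H
  have e1 : 2 * dl * (6 * (5 * dd * p384 * (b ^ 4 + t ^ 2)) +
      6 * (D * (3 * dd * p1000 + 5 * dd * p384)) + 6 * tilt3 b t s v lam cw dd +
      err3 b t s v w x a1 e H) = dl * (12 * (5 * dd * p384 * (b ^ 4 + t ^ 2)) +
      12 * (D * (3 * dd * p1000 + 5 * dd * p384)) + 12 * tilt3 b t s v lam cw dd +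
      2 * err3 b t s v w x a1 e H) := by ring
  rw [e1, h, h2]
  simp only [g3, e3, e5, G3E, tilt3E, rbsE, err3E, sd3E, N01E, QbE, Ex.ev_add, Ex.ev_mul,
    Ex.ev_pow, Ex.ev_ofNat, Ex.ev_v, en, envv, tilt3, Tilt.rbs]
  push_cast
  ring
end

variable {ι : Type*} [Fintype ι] [DecidableEq ι]
variable {F : Finset ι} {Zp Zm Z : Matrix ι ι ℝ} {forb : ι → ι → Prop} {ε : ℝ} {n d k : ℕ}

theorem tilt3_I (E : EnvA n d k F Zp Zm forb) (hs : Sgn Zp Zm ε Z) (hk : k < k1 n d) :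
    |∑ q ∈ adm F forb Zp Zm, hA n d k F forb Zp Zm q.1 q.2 * rh Z 2 q.1 q.2| ≤
      tilt3 (bP n d k) (tP n d k) (sP n d k) (vP n d k) (lam n) (cP n d k) ((d : ℝ) * (d + 1)) := by
  obtain ⟨Z', hP⟩ := hs.isPair
  have h := (E.two hk).tilt_T3 E.tp hP
  have e : ∀ q : ι × ι, hA n d k F forb Zp Zm q.1 q.2 * rh Z 2 q.1 q.2 =
      Tilt.hT F forb Zp Zm (lam n) q.1 q.2 * (Z ^ 4 - Z ^ 2) q.1 q.2 := by
    intro q
    unfold hA
    rw [if_pos hk, rh_eq, Matrix.sub_apply]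
  simp only [e]
  refine h.trans ?_
  unfold tilt3
  have h1 := bP_nonneg n d k
  have h4 := vP_nonneg n d k
  have h9 := lam_nn n
  have h10 : 0 ≤ lam n * vP n d k * (bP n d k ^ 4 + bP n d k ^ 2) :=
    mul_nonneg (mul_nonneg h9 h4) (add_nonneg (pow_nonneg h1 4) (pow_nonneg h1 2))
  linarith

theorem tilt3_II (hk1 : k1 n d ≤ k) :
    |∑ q ∈ adm F forb Zp Zm, hA n d k F forb Zp Zm q.1 q.2 * rh Z 2 q.1 q.2| ≤
      tilt3 (bP n d k) (tP n d k) (sP n d k) (vP n d k) 0 0 ((d : ℝ) * (d + 1)) := by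
  have e : ∀ q : ι × ι, hA n d k F forb Zp Zm q.1 q.2 * rh Z 2 q.1 q.2 = 0 := by
    intro q
    unfold hA
    rw [if_neg (not_lt.2 hk1), zero_mul]
  simp only [e, Finset.sum_const_zero, abs_zero]
  unfold tilt3 Tilt.rbs
  simp

/-- the bound for the mean increment of `T₃` -/
theorem T3_upper (hσ : 2000 ≤ sR n) (E : EnvA n d k F Zp Zm forb) (hs : Sgn Zp Zm ε Z) {a1 : ℝ}
    (ha : 0 ≤ a1)
    (ha1 : 2 * (bP n d k ^ 4 + vP n d k * (bP n d k ^ 2 * wP n d k)) + 2 * sP n d k ^ 2 ≤ a1 ^ 2)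
    {D τ : ℝ} (hD : |(Z ^ 2).trace - Nk n d k| ≤ D)
    (hτ : |∑ q ∈ adm F forb Zp Zm, hA n d k F forb Zp Zm q.1 q.2 * rh Z 2 q.1 q.2| ≤ τ) :
    |∑ q ∈ adm F forb Zp Zm, (1 - hA n d k F forb Zp Zm q.1 q.2) *
      ((upd Z q.1 q.2 ^ 3).trace - (Z ^ 3).trace)| ≤
    6 * (5 * ((d : ℝ) * (d + 1)) * (sR n : ℝ) ^ 384 * (bP n d k ^ 4 + tP n d k ^ 2)) +
    6 * (D * (3 * ((d : ℝ) * (d + 1)) * (sR n : ℝ) ^ 1000 + 5 * ((d : ℝ) * (d + 1)) * (sR n : ℝ) ^ 384)) + 6 * τ +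
    err3 (bP n d k) (tP n d k) (sP n d k) (vP n d k) (wP n d k) (bP n d k ^ 2) a1
      (eP n d k) (HP n d k) := by
  have hd := E.d3
  have hε := hs.sq
  have c := E.oneA hs
  have hT2 : 0 ≤ (Z ^ 2).trace := by
    have := Mat.trace_pow_even_nonneg c.symm 1
    simpa using this
  have hT4 : 0 ≤ (Z ^ 4).trace := by
    have := Mat.trace_pow_even_nonneg c.symm 2
    simpa using this
  have hmean := (Ctl.ct c.ctl ha ha1).T3_mean (h := hA n d k F forb Zp Zm)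
    (adm_subset F forb Zp Zm)
    (adm_ok Zp Zm hs) (fun q _ => abs_hA_le E q.1 q.2) (eP_nonneg n d k) (HP_nonneg n d k)
    (card_compl_le E (by omega)) (sum_hA_sq_le E _)
  have k1 := abs_T3_le hσ hd c
  have k2 := abs_T1_le hσ hd c
  rw [abs_eps hε] at k1 k2
  have h3 : |Z.trace * ((Z ^ 4).trace - (Z ^ 2).trace)| ≤
      5 * ((d : ℝ) * (d + 1)) * (sR n : ℝ) ^ 384 * (bP n d k ^ 4 + tP n d k ^ 2) := by
    rw [abs_mul]
    refine mul_le_mul k2 ?_ (abs_nonneg _) ((abs_nonneg _).trans k2)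
    have := c.T4
    have := c.T2
    rw [abs_le]; constructor <;> linarith [sq_nonneg (tP n d k),
      pow_nonneg (bP_nonneg n d k) 4]
  have h4 : |((Z ^ 2).trace - F.card) * ((Z ^ 3).trace - Z.trace)| ≤
      D * (3 * ((d : ℝ) * (d + 1)) * (sR n : ℝ) ^ 1000 + 5 * ((d : ℝ) * (d + 1)) * (sR n : ℝ) ^ 384) := by
    rw [E.card, abs_mul]
    exact mul_le_mul hD ((abs_sub _ _).trans (add_le_add k1 k2)) (abs_nonneg _)
      ((abs_nonneg _).trans hD)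
  have a1 := abs_le.1 hmean
  have a2 := abs_le.1 h3
  have a3 := abs_le.1 h4
  have a4 := abs_le.1 hτ
  rw [abs_le]
  constructor
  · linarith [a1.1, a2.1, a3.1, a4.2]
  · linarith [a1.2, a2.2, a3.2, a4.1]

/-- the square rate, abstract scale -/
theorem T3_sq_rate (E : EnvA n d k F Zp Zm forb) (hs : Sgn Zp Zm ε Z) {a1 : ℝ}
    (ha : 0 ≤ a1)
    (ha1 : 2 * (bP n d k ^ 4 + vP n d k * (bP n d k ^ 2 * wP n d k)) + 2 * sP n d k ^ 2 ≤ a1 ^ 2)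
    {E1 δ c₀ : ℝ} (hc : 0 < c₀)
    (h1 : |∑ q ∈ adm F forb Zp Zm, (1 - hA n d k F forb Zp Zm q.1 q.2) *
      ((upd Z q.1 q.2 ^ 3).trace - (Z ^ 3).trace)| ≤ E1)
    (hδ : |ε * (Z ^ 3).trace - kap n d| ≤ δ) :
    ∑ q ∈ adm F forb Zp Zm, (1 - hA n d k F forb Zp Zm q.1 q.2) *
      ((ε * (upd Z q.1 q.2 ^ 3).trace - kap n d) ^ 2 / c₀ -
        (ε * (Z ^ 3).trace - kap n d) ^ 2 / c₀) ≤
    (2 * δ * E1 +
    2 * (3 / 2 * sd3 (bP n d k) (tP n d k) (sP n d k) (vP n d k) (wP n d k) (bP n d k ^ 2) a1 ^ 2)) /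
      c₀ := by
  have c := E.oneA hs
  have hε := hs.sq
  have h2 := (Ctl.ct c.ctl ha ha1).T3_sq (adm_subset F forb Zp Zm) (adm_ok Zp Zm hs)
  have e1 : ∀ q : ι × ι, ε * (upd Z q.1 q.2 ^ 3).trace - ε * (Z ^ 3).trace =
      ε * ((upd Z q.1 q.2 ^ 3).trace - (Z ^ 3).trace) := fun q => by ring
  have h3 : |∑ q ∈ adm F forb Zp Zm, (1 - hA n d k F forb Zp Zm q.1 q.2) *
      (ε * (upd Z q.1 q.2 ^ 3).trace - ε * (Z ^ 3).trace) - 0| ≤ E1 := by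
    have e2 : ∑ q ∈ adm F forb Zp Zm, (1 - hA n d k F forb Zp Zm q.1 q.2) *
      (ε * (upd Z q.1 q.2 ^ 3).trace - ε * (Z ^ 3).trace) =
      ε * ∑ q ∈ adm F forb Zp Zm, (1 - hA n d k F forb Zp Zm q.1 q.2) *
      ((upd Z q.1 q.2 ^ 3).trace - (Z ^ 3).trace) := by
      rw [Finset.mul_sum]
      exact Finset.sum_congr rfl fun q _ => by ring
    rw [sub_zero, e2, abs_eps hε]
    exact h1
  have h4 : ∑ q ∈ adm F forb Zp Zm, (1 - hA n d k F forb Zp Zm q.1 q.2) *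
      (ε * (upd Z q.1 q.2 ^ 3).trace - ε * (Z ^ 3).trace) ^ 2 ≤ 3 / 2 *
      sd3 (bP n d k) (tP n d k) (sP n d k) (vP n d k) (wP n d k) (bP n d k ^ 2) a1 ^ 2 := by
    refine sum_weight_sq_le _ _ _ (fun q _ => ?_) ?_
    · have := abs_le.1 (abs_hA_le E q.1 q.2)
      linarith [this.1]
    · refine le_trans (le_of_eq (Finset.sum_congr rfl fun q _ => ?_)) h2
      rw [e1, mul_pow, hε, one_mul]
  have h5 := sq_rate_div (adm F forb Zp Zm) (fun q => 1 - hA n d k F forb Zp Zm q.1 q.2)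
    (fun q => ε * (upd Z q.1 q.2 ^ 3).trace) (t := kap n d) (t' := kap n d) hc
    (fun q _ => weight_nonneg E q.1 q.2) h3 h4 hδ
  refine h5.trans (le_of_eq ?_)
  congr 1
  rw [sub_self, zero_mul, sub_zero, abs_zero]
  ring

theorem T3_bd_I (hσ : 2000 ≤ sR n) (h2 : 2 * d ≤ sR n) (E : EnvA n d k F Zp Zm forb)
    (hs : Sgn Zp Zm ε Z) (hk : k < k1 n d) :
    ∑ q ∈ adm F forb Zp Zm, (1 - hA n d k F forb Zp Zm q.1 q.2) *
      ((ε * (upd Z q.1 q.2 ^ 3).trace - kap n d) ^ 2 / (sR n : ℝ) ^ 1900 -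
        (ε * (Z ^ 3).trace - kap n d) ^ 2 / (sR n : ℝ) ^ 1900) ≤ g3.cs (κI d) * rT n d k := by
  have hd := E.d3
  have R := rg1 hσ h2 hd hk
  have c := E.oneA hs
  have hσ0 : (0 : ℝ) < sR n := by linarith [sR_one hσ]
  have hD : |(Z ^ 2).trace - Nk n d k| ≤ (sR n : ℝ) ^ 683 := by
    have h := c.dD
    rw [tD_of_le hk.le, sub_zero] at h
    exact h
  have hδ : |ε * (Z ^ 3).trace - kap n d| ≤ (sR n : ℝ) ^ 950 := by
    have h := c.d3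
    rw [if_pos hk] at h
    exact h
  have h0 := T3_upper hσ E hs (mul_Em_nonneg (c := 3) (by norm_num) _ _ _ _ _ _)
    (a1_I hσ h2 hd hk) hD (tilt3_I E hs hk)
  have h1 := T3_sq_rate E hs (mul_Em_nonneg (c := 3) (by norm_num) _ _ _ _ _ _)
    (a1_I hσ h2 hd hk) (pow_pos hσ0 1900) h0 hδ
  have h3 := Ex.bound g3 R zI1 zI2 g3_I1 g3_I2 (ρI_nonneg (n := n) (d := d) (k := k))
    (κI_nonneg d) (ρI_le hσ hk)
  have h5 := g3_ev (bP n d k) (tP n d k) (sP n d k) (vP n d k) (wP n d k) (bP n d k ^ 2)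
    (3 * Asm.Em (LL n) (XX n d k) 802 1001 2613 2613) (eP n d k) (HP n d k) (lam n) (cP n d k)
    ((sR n : ℝ) ^ 377) ((sR n : ℝ) ^ 384) ((sR n : ℝ) ^ 683) ((sR n : ℝ) ^ 1000) ((d : ℝ) * (d + 1))
    ((sR n : ℝ) ^ 683) ((sR n : ℝ) ^ 950)
  have h7 : g3.ev (ρI n d k) = _ := h5
  rw [h7] at h3
  refine h1.trans ?_
  rw [div_le_iff₀ (pow_pos hσ0 1900), mul_assoc (g3.cs (κI d)), rT_I, sR_pow_Em hσ (X := XX n d k)
    (show (802 : ℝ) < 1001 by norm_num) 1900, Em_mul]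
  exact h3

theorem T3_bd_II (hσ : 2000 ≤ sR n) (E : EnvA n d k F Zp Zm forb)
    (hs : Sgn Zp Zm ε Z) (hk1 : k1 n d ≤ k) :
    ∑ q ∈ adm F forb Zp Zm, (1 - hA n d k F forb Zp Zm q.1 q.2) *
      ((ε * (upd Z q.1 q.2 ^ 3).trace - kap n d) ^ 2 / (sR n : ℝ) ^ 1986 -
        (ε * (Z ^ 3).trace - kap n d) ^ 2 / (sR n : ℝ) ^ 1986) ≤ g3.cs (κII d) * rT n d k := by
  have hd := E.d3
  have hk := E.k_lt
  have R := rg2 hσ hd hk1 hk
  have c := E.oneA hs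
  have hσ0 : (0 : ℝ) < sR n := by linarith [sR_one hσ]
  have hD : |(Z ^ 2).trace - Nk n d k| ≤
      16 * (d : ℝ) ^ 4 * mo (LL n) (XX n d k) 1384 (-1) + (sR n : ℝ) ^ 683 := by
    have h := c.dD
    have h' := abs_tD_le hσ hd hk.le
    have h6 := abs_add_le ((Z ^ 2).trace - Nk n d k - tD n d k) (tD n d k)
    rw [sub_add_cancel] at h6
    linarith
  have hδ : |ε * (Z ^ 3).trace - kap n d| ≤ (sR n : ℝ) ^ 993 := by
    have h := c.d3
    rw [if_neg (not_lt.2 hk1)] at h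
    exact h
  have h0 := T3_upper hσ E hs (mul_Em_nonneg (c := 3) (by norm_num) _ _ _ _ _ _)
    (a1_II hσ hd hk1 hk) hD (tilt3_II hk1)
  have h1 := T3_sq_rate E hs (mul_Em_nonneg (c := 3) (by norm_num) _ _ _ _ _ _)
    (a1_II hσ hd hk1 hk) (pow_pos hσ0 1986) h0 hδ
  have h3 := Ex.bound g3 R zII1 zII2 g3_II1 g3_II2 (ρII_nonneg (n := n) (d := d) (k := k))
    (κII_nonneg d) (ρII_le hσ hd hk1 hk)
  have h5 := g3_ev (bP n d k) (tP n d k) (sP n d k) (vP n d k) (wP n d k) (bP n d k ^ 2)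
    (3 * Asm.Em (LL n) (XX n d k) 699 802 2693 2693) (eP n d k) (HP n d k) 0 0
    0 ((sR n : ℝ) ^ 384) ((sR n : ℝ) ^ 683) ((sR n : ℝ) ^ 1000) ((d : ℝ) * (d + 1))
    (16 * (d : ℝ) ^ 4 * mo (LL n) (XX n d k) 1384 (-1) + (sR n : ℝ) ^ 683) ((sR n : ℝ) ^ 993)
  have h7 : g3.ev (ρII n d k) = _ := h5
  rw [h7] at h3
  refine h1.trans ?_
  rw [div_le_iff₀ (pow_pos hσ0 1986), mul_assoc (g3.cs (κII d)), rT_II, sR_pow_Em hσ (X := XX n d k)
    (show (699 : ℝ) < 802 by norm_num) 1986, Em_mul]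
  exact h3

theorem g3I_nonneg (d : ℕ) : 0 ≤ g3.cs (κI d) :=
  (Ex.ev_le (L := 1) (X := 1) (xl := 0) (xh := 2) ⟨by norm_num, by norm_num, by norm_num⟩
    (ρ := fun _ => 0) (κ := κI d) (y1 := fun _ => 0) (y2 := fun _ => 0) (fun _ => le_rfl)
    (fun i => mul_Em_nonneg (κI_nonneg d i) _ _ _ _ _ _) (κI_nonneg d) g3).1

theorem g3II_nonneg (d : ℕ) : 0 ≤ g3.cs (κII d) :=
  (Ex.ev_le (L := 1) (X := 1) (xl := 0) (xh := 2) ⟨by norm_num, by norm_num, by norm_num⟩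
    (ρ := fun _ => 0) (κ := κII d) (y1 := fun _ => 0) (y2 := fun _ => 0) (fun _ => le_rfl)
    (fun i => mul_Em_nonneg (κII_nonneg d i) _ _ _ _ _ _) (κII_nonneg d) g3).1

/-- **rate lemma for `T₃`** -/
theorem rate_T3 (d : ℕ) : ∃ C : ℝ, 0 ≤ C ∧ ∃ s₀ : ℕ, ∀ {ι : Type*} [Fintype ι] [DecidableEq ι]
    (n k : ℕ) (F : Finset ι) (Zp Zm : Matrix ι ι ℝ) (forb : ι → ι → Prop), s₀ ≤ sR n →
    EnvA n d k F Zp Zm forb → ∀ (ε : ℝ) (Z : Matrix ι ι ℝ), Sgn Zp Zm ε Z →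
    ∑ p ∈ adm F forb Zp Zm, (1 - hA n d k F forb Zp Zm p.1 p.2) *
      (f3 n d (k + 1) ε (upd Z p.1 p.2) - f3 n d k ε Z) ≤ C * rT n d k := by
  refine ⟨g3.cs (κI d) + g3.cs (κII d), add_nonneg (g3I_nonneg d) (g3II_nonneg d),
    max 2000 (2 * d), ?_⟩
  intro ι _ _ n k F Zp Zm forb hs0 E ε Z hs
  have hσ : 2000 ≤ sR n := le_trans (le_max_left _ _) hs0
  have h2 : 2 * d ≤ sR n := le_trans (le_max_right _ _) hs0
  have hσ1 := sR_one hσ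
  have hσ0 : (0 : ℝ) < sR n := by linarith
  have hr : 0 ≤ rT n d k := mo_nonneg _ _ _ _
  have n1 := mul_nonneg (g3I_nonneg d) hr
  have n2 := mul_nonneg (g3II_nonneg d) hr
  rcases lt_or_ge k (k1 n d) with hk | hk
  · have h3 := T3_bd_I hσ h2 E hs hk
    refine le_trans (Finset.sum_le_sum fun q _ => mul_le_mul_of_nonneg_left ?_
      (weight_nonneg E q.1 q.2)) (h3.trans (by linarith))
    unfold f3
    rw [if_pos hk]
    refine sub_le_sub_right ?_ _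
    split_ifs
    · exact le_rfl
    · exact div_le_div_of_nonneg_left (sq_nonneg _) (pow_pos hσ0 1900)
        (pow_le_pow_right₀ hσ1 (by norm_num))
  · have h3 := T3_bd_II hσ E hs hk
    refine le_trans (le_of_eq (Finset.sum_congr rfl fun q _ => ?_)) (h3.trans (by linarith))
    unfold f3
    rw [if_neg (not_lt.2 hk), if_neg (not_lt.2 (Nat.le_succ_of_le hk))]

end Vale.Agent.P049.TS.T34
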