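import Vale.Agent.P049.TS.T34.Rate4

/-!
The rate lemma for the potential `f4` (phases I and II).
-/

set_option linter.unusedSectionVars false
set_option exponentiation.threshold 3000

namespace Vale.Agent.P049.TS.T34

open Matrix Finset Vale.Agent.P049.TS.Asm

variable {ι : Type*} [Fintype ι] [DecidableEq ι]
variable {F : Finset ι} {Zp Zm Z : Matrix ι ι ℝ} {forb : ι → ι → Prop} {ε : ℝ} {n d k : ℕ}

theorem mul_Em_nonneg {c : ℝ} (hc : 0 ≤ c) (L X xl xh : ℝ) (y1 y2 : ℤ) :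
    0 ≤ c * Asm.Em L X xl xh y1 y2 := mul_nonneg hc (Em_pos _ _ _ _ _ _).le

theorem sRp (j : ℕ) : (0 : ℝ) ≤ (sR n : ℝ) ^ j := pow_nonneg (Nat.cast_nonneg _) j

theorem lam_nn (n : ℕ) : 0 ≤ lam n := by unfold lam; exact sRp 186

theorem ρI_nonneg : ∀ i : ℕ, 0 ≤ ρI n d k i
  | 0 => bP_nonneg n d k
  | 1 => tP_nonneg n d k
  | 2 => sP_nonneg n d k
  | 3 => vP_nonneg n d k
  | 4 => wP_nonneg n d k
  | 5 => pow_nonneg (bP_nonneg n d k) 2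
  | 6 => mul_Em_nonneg (c := 3) (by norm_num) (LL n) (XX n d k) 802 1001 2613 2613
  | 7 => eP_nonneg n d k
  | 8 => HP_nonneg n d k
  | 9 => lam_nn n
  | 10 => cP_nonneg n d k
  | 11 => sRp 377
  | 12 => sRp 384
  | 13 => sRp 683
  | 14 => sRp 1000
  | 15 => mul_nonneg (Nat.cast_nonneg d) (by positivity)
  | 16 => sRp 683
  | 17 => sRp 950
  | (_ + 18) => le_refl (0 : ℝ)

theorem ρII_nonneg : ∀ i : ℕ, 0 ≤ ρII n d k i
  | 0 => bP_nonneg n d k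
  | 1 => tP_nonneg n d k
  | 2 => sP_nonneg n d k
  | 3 => vP_nonneg n d k
  | 4 => wP_nonneg n d k
  | 5 => pow_nonneg (bP_nonneg n d k) 2
  | 6 => mul_Em_nonneg (c := 3) (by norm_num) (LL n) (XX n d k) 699 802 2693 2693
  | 7 => eP_nonneg n d k
  | 8 => HP_nonneg n d k
  | 9 => le_refl (0 : ℝ)
  | 10 => le_refl (0 : ℝ)
  | 11 => le_refl (0 : ℝ)
  | 12 => sRp 384
  | 13 => sRp 683
  | 14 => sRp 1000
  | 15 => mul_nonneg (Nat.cast_nonneg d) (by positivity)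
  | 16 => add_nonneg (mul_nonneg (by positivity) (mo_nonneg _ _ _ _)) (sRp 683)
  | 17 => sRp 993
  | (_ + 18) => le_refl (0 : ℝ)

/-- the condition on `a1`, phase I -/
theorem a1_I (hσ : 2000 ≤ sR n) (h2 : 2 * d ≤ sR n) (hd : 3 ≤ d) (hk : k < k1 n d) :
    2 * (bP n d k ^ 4 + vP n d k * (bP n d k ^ 2 * wP n d k)) + 2 * sP n d k ^ 2 ≤
      (3 * Asm.Em (LL n) (XX n d k) 802 1001 2613 2613) ^ 2 := by
  have R := rg1 hσ h2 hd hk
  rw [bP_I, vP_I hk, wP_I, sP_I, mul_pow, Em_pow, Em_pow, Em_pow, Em_pow]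
  have e1 : Asm.Em (LL n) (XX n d k) 802 1001 1220 1220 *
      (Asm.Em (LL n) (XX n d k) 802 1001 ((2 : ℕ) * 1201) ((2 : ℕ) * 1002) *
        (2 * Asm.Em (LL n) (XX n d k) 802 1001 1604 2002)) =
      2 * Asm.Em (LL n) (XX n d k) 802 1001 5226 5226 := by
    have h := Em_mul (LL n) (XX n d k) 802 1001 ((2 : ℕ) * 1201) ((2 : ℕ) * 1002) 1604 2002
    have h' := Em_mul (LL n) (XX n d k) 802 1001 1220 1220 ((2 : ℕ) * 1201 + 1604)
      ((2 : ℕ) * 1002 + 2002)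
    rw [← h] at h'
    norm_num at h' ⊢
    linarith
  rw [e1]
  have k1 := Em_le R (show ((4 : ℕ) * 1201 : ℤ) ≤ 5226 by norm_num)
    (show ((4 : ℕ) * 1002 : ℤ) ≤ 5226 by norm_num)
  have k2 := Em_le R (show ((2 : ℕ) * 160 : ℤ) ≤ 5226 by norm_num)
    (show ((2 : ℕ) * 160 : ℤ) ≤ 5226 by norm_num)
  have e2 : Asm.Em (LL n) (XX n d k) 802 1001 ((2 : ℕ) * 2613) ((2 : ℕ) * 2613) =
      Asm.Em (LL n) (XX n d k) 802 1001 5226 5226 := by norm_num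
  rw [e2]
  have := Em_pos (LL n) (XX n d k) 802 1001 5226 5226
  linarith

/-- the condition on `a1`, phase II -/
theorem a1_II (hσ : 2000 ≤ sR n) (hd : 3 ≤ d) (hk1 : k1 n d ≤ k) (hk : k < k2 n d) :
    2 * (bP n d k ^ 4 + vP n d k * (bP n d k ^ 2 * wP n d k)) + 2 * sP n d k ^ 2 ≤
      (3 * Asm.Em (LL n) (XX n d k) 699 802 2693 2693) ^ 2 := by
  have R := rg2 hσ hd hk1 hk
  rw [bP_II, vP_II hk1, wP_II, sP_II, mul_pow, Em_pow, Em_pow, Em_pow, Em_pow]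
  have e1 : Asm.Em (LL n) (XX n d k) 699 802 1380 1380 *
      (Asm.Em (LL n) (XX n d k) 699 802 ((2 : ℕ) * 1304) ((2 : ℕ) * 1201) *
        (2 * Asm.Em (LL n) (XX n d k) 699 802 1398 1604)) =
      2 * Asm.Em (LL n) (XX n d k) 699 802 5386 5386 := by
    have h := Em_mul (LL n) (XX n d k) 699 802 ((2 : ℕ) * 1304) ((2 : ℕ) * 1201) 1398 1604
    have h' := Em_mul (LL n) (XX n d k) 699 802 1380 1380 ((2 : ℕ) * 1304 + 1398)
      ((2 : ℕ) * 1201 + 1604)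
    rw [← h] at h'
    norm_num at h' ⊢
    linarith
  rw [e1]
  have k1 := Em_le R (show ((4 : ℕ) * 1304 : ℤ) ≤ 5386 by norm_num)
    (show ((4 : ℕ) * 1201 : ℤ) ≤ 5386 by norm_num)
  have k2 := Em_le R (show ((2 : ℕ) * 160 : ℤ) ≤ 5386 by norm_num)
    (show ((2 : ℕ) * 160 : ℤ) ≤ 5386 by norm_num)
  have e2 : Asm.Em (LL n) (XX n d k) 699 802 ((2 : ℕ) * 2693) ((2 : ℕ) * 2693) =
      Asm.Em (LL n) (XX n d k) 699 802 5386 5386 := by norm_num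
  rw [e2]
  have := Em_pos (LL n) (XX n d k) 699 802 5386 5386
  linarith

/-- the tilt term of `T₄`, phase I -/
theorem tilt4_I (E : EnvA n d k F Zp Zm forb) (hs : Sgn Zp Zm ε Z) (hk : k < k1 n d) :
    -∑ q ∈ adm F forb Zp Zm, hA n d k F forb Zp Zm q.1 q.2 * rh Z 3 q.1 q.2 ≤
      tilt4 (bP n d k) (tP n d k) (sP n d k) (vP n d k) (lam n) (cP n d k) ((d : ℝ) * (d + 1)) := by
  obtain ⟨Z', hP⟩ := hs.isPair
  have h := (E.two hk).tilt_T4_neg E.tp hP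
  have e : ∀ q : ι × ι, hA n d k F forb Zp Zm q.1 q.2 * rh Z 3 q.1 q.2 =
      Tilt.hT F forb Zp Zm (lam n) q.1 q.2 * (Z ^ 5 - Z ^ 3) q.1 q.2 := by
    intro q
    unfold hA
    rw [if_pos hk, rh_eq, Matrix.sub_apply]
  simp only [e]
  refine h.trans ?_
  unfold tilt4
  have h1 := bP_nonneg n d k
  have h4 := vP_nonneg n d k
  have h9 := lam_nn n
  have h10 : 0 ≤ lam n * vP n d k * (bP n d k ^ 5 + bP n d k ^ 3) :=
    mul_nonneg (mul_nonneg h9 h4) (add_nonneg (pow_nonneg h1 5) (pow_nonneg h1 3))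
  linarith

theorem tilt4_II (hk1 : k1 n d ≤ k) :
    -∑ q ∈ adm F forb Zp Zm, hA n d k F forb Zp Zm q.1 q.2 * rh Z 3 q.1 q.2 ≤
      tilt4 (bP n d k) (tP n d k) (sP n d k) (vP n d k) 0 0 ((d : ℝ) * (d + 1)) := by
  have e : ∀ q : ι × ι, hA n d k F forb Zp Zm q.1 q.2 * rh Z 3 q.1 q.2 = 0 := by
    intro q
    unfold hA
    rw [if_neg (not_lt.2 hk1), zero_mul]
  simp only [e, Finset.sum_const_zero, neg_zero]
  unfold tilt4 Tilt.rbs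
  simp

theorem T4_bd_I (hσ : 2000 ≤ sR n) (h2 : 2 * d ≤ sR n) (E : EnvA n d k F Zp Zm forb)
    (hs : Sgn Zp Zm ε Z) (hk : k < k1 n d) :
    ∑ q ∈ adm F forb Zp Zm, (1 - hA n d k F forb Zp Zm q.1 q.2) *
      ((upd Z q.1 q.2 ^ 4).trace - (Z ^ 4).trace) ≤
    g4.cs (κI d) * (sR n : ℝ) ^ 2002 := by
  have hd := E.d3
  have R := rg1 hσ h2 hd hk
  have h1 := T4_upper hσ E hs (mul_Em_nonneg (c := 3) (by norm_num) _ _ _ _ _ _)
    (a1_I hσ h2 hd hk) (show (0 : ℝ) ≤ (sR n : ℝ) ^ 377 by positivity)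
    (T1_le_I hσ hd (E.oneA hs)) (tilt4_I E hs hk)
  have h3 := Ex.bound g4 R zI1 zI2 g4_I1 g4_I2 (ρI_nonneg (n := n) (d := d) (k := k))
    (κI_nonneg d) (ρI_le hσ hk)
  have h4 := Ex.ev_nonneg (ρI_nonneg (n := n) (d := d) (k := k)) g4
  have h5 := g4_ev (bP n d k) (tP n d k) (sP n d k) (vP n d k) (wP n d k) (bP n d k ^ 2)
    (3 * Asm.Em (LL n) (XX n d k) 802 1001 2613 2613) (eP n d k) (HP n d k) (lam n) (cP n d k)
    ((sR n : ℝ) ^ 377) ((sR n : ℝ) ^ 384) ((sR n : ℝ) ^ 683) ((sR n : ℝ) ^ 1000) ((d : ℝ) * (d + 1))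
    ((sR n : ℝ) ^ 683) ((sR n : ℝ) ^ 950)
  have h6 : (sR n : ℝ) ^ 2002 = Asm.Em (LL n) (XX n d k) 802 1001 8008 8008 :=
    sR_pow_Em hσ (by norm_num) 2002
  rw [h6]
  have h7 : g4.ev (ρI n d k) = _ := h5
  linarith

theorem T4_bd_II (hσ : 2000 ≤ sR n) (E : EnvA n d k F Zp Zm forb)
    (hs : Sgn Zp Zm ε Z) (hk1 : k1 n d ≤ k) :
    ∑ q ∈ adm F forb Zp Zm, (1 - hA n d k F forb Zp Zm q.1 q.2) *
      ((upd Z q.1 q.2 ^ 4).trace - (Z ^ 4).trace) ≤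
    g4.cs (κII d) * (sR n : ℝ) ^ 2002 := by
  have hd := E.d3
  have hk := E.k_lt
  have R := rg2 hσ hd hk1 hk
  have h1 := T4_upper hσ E hs (mul_Em_nonneg (c := 3) (by norm_num) _ _ _ _ _ _)
    (a1_II hσ hd hk1 hk) (le_refl (0 : ℝ))
    (T1_le_II hσ hd hk1 (E.oneA hs)) (tilt4_II hk1)
  have h3 := Ex.bound g4 R zII1 zII2 g4_II1 g4_II2 (ρII_nonneg (n := n) (d := d) (k := k))
    (κII_nonneg d) (ρII_le hσ hd hk1 hk)
  have h4 := Ex.ev_nonneg (ρII_nonneg (n := n) (d := d) (k := k)) g4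
  have h5 := g4_ev (bP n d k) (tP n d k) (sP n d k) (vP n d k) (wP n d k) (bP n d k ^ 2)
    (3 * Asm.Em (LL n) (XX n d k) 699 802 2693 2693) (eP n d k) (HP n d k) 0 0
    0 ((sR n : ℝ) ^ 384) ((sR n : ℝ) ^ 683) ((sR n : ℝ) ^ 1000) ((d : ℝ) * (d + 1))
    (16 * (d : ℝ) ^ 4 * mo (LL n) (XX n d k) 1384 (-1) + (sR n : ℝ) ^ 683) ((sR n : ℝ) ^ 993)
  have h6 : (sR n : ℝ) ^ 2002 = Asm.Em (LL n) (XX n d k) 699 802 8008 8008 :=
    sR_pow_Em hσ (by norm_num) 2002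
  rw [h6]
  have h7 : g4.ev (ρII n d k) = _ := h5
  linarith

theorem rT_eq (hσ : 2000 ≤ sR n) (hN : 0 < Nk n d k) : rT n d k = Nk n d k / sR n := by
  have h1 : rT n d k = mo (LL n) (XX n d k) 0 1 / mo (LL n) (XX n d k) 1 0 := by
    unfold rT
    rw [mo_div]; norm_num
  have h2 := sR_pow (n := n) (by omega) (XX n d k) 1
  rw [pow_one, Nat.cast_one] at h2
  rw [h1, ← h2, ← Nk_eq_mo hN (LL n)]

theorem g4I_nonneg (d : ℕ) : 0 ≤ g4.cs (κI d) :=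
  (Ex.ev_le (L := 1) (X := 1) (xl := 0) (xh := 2) ⟨by norm_num, by norm_num, by norm_num⟩
    (ρ := fun _ => 0) (κ := κI d) (y1 := fun _ => 0) (y2 := fun _ => 0) (fun _ => le_rfl)
    (fun i => mul_Em_nonneg (κI_nonneg d i) _ _ _ _ _ _) (κI_nonneg d) g4).1

theorem g4II_nonneg (d : ℕ) : 0 ≤ g4.cs (κII d) :=
  (Ex.ev_le (L := 1) (X := 1) (xl := 0) (xh := 2) ⟨by norm_num, by norm_num, by norm_num⟩
    (ρ := fun _ => 0) (κ := κII d) (y1 := fun _ => 0) (y2 := fun _ => 0) (fun _ => le_rfl)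
    (fun i => mul_Em_nonneg (κII_nonneg d i) _ _ _ _ _ _) (κII_nonneg d) g4).1

/-- **rate lemma for `T₄`** -/
theorem rate_T4 (d : ℕ) : ∃ C : ℝ, 0 ≤ C ∧ ∃ s₀ : ℕ, ∀ {ι : Type*} [Fintype ι] [DecidableEq ι]
    (n k : ℕ) (F : Finset ι) (Zp Zm : Matrix ι ι ℝ) (forb : ι → ι → Prop), s₀ ≤ sR n →
    EnvA n d k F Zp Zm forb → ∀ (ε : ℝ) (Z : Matrix ι ι ℝ), Sgn Zp Zm ε Z →
    ∑ p ∈ adm F forb Zp Zm, (1 - hA n d k F forb Zp Zm p.1 p.2) *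
      (f4 n d (k + 1) (upd Z p.1 p.2) - f4 n d k Z) ≤ C * rT n d k := by
  refine ⟨g4.cs (κI d) + g4.cs (κII d), add_nonneg (g4I_nonneg d) (g4II_nonneg d),
    max 2000 (2 * d), ?_⟩
  intro ι _ _ n k F Zp Zm forb hs0 E ε Z hs
  have hσ : 2000 ≤ sR n := le_trans (le_max_left _ _) hs0
  have h2 : 2 * d ≤ sR n := le_trans (le_max_right _ _) hs0
  have c := E.oneA hs
  have hN := Nk_pos (by omega) E.k_lt
  have hN4 := four_le_Nk hσ E.k_lt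
  have hσ0 : (0 : ℝ) < sR n := by linarith [sR_one hσ]
  have hM : ∑ q ∈ adm F forb Zp Zm, (1 - hA n d k F forb Zp Zm q.1 q.2) *
      ((upd Z q.1 q.2 ^ 4).trace - (Z ^ 4).trace) ≤
      (g4.cs (κI d) + g4.cs (κII d)) * (sR n : ℝ) ^ 2002 := by
    have n1 := g4I_nonneg d
    have n2 := g4II_nonneg d
    have n3 : (0 : ℝ) ≤ (sR n : ℝ) ^ 2002 := by positivity
    rcases lt_or_ge k (k1 n d) with hk | hk
    · have := T4_bd_I hσ h2 E hs hk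
      nlinarith
    · have := T4_bd_II hσ E hs hk
      nlinarith
  have hc : (0 : ℝ) < (sR n : ℝ) ^ 2003 := by positivity
  have h3 := lin_rate_mulN (adm F forb Zp Zm)
    (fun q => 1 - hA n d k F forb Zp Zm q.1 q.2) (fun q => (upd Z q.1 q.2 ^ 4).trace)
    (P := (Z ^ 4).trace) (N := Nk n d k) hc (by linarith) hM
  have h4 : ∀ q : ι × ι, f4 n d (k + 1) (upd Z q.1 q.2) - f4 n d k Z =
      (upd Z q.1 q.2 ^ 4).trace * (Nk n d k - 2) / (sR n : ℝ) ^ 2003 -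
      (Z ^ 4).trace * Nk n d k / (sR n : ℝ) ^ 2003 := by
    intro q
    unfold f4
    rw [Nk_succ]
  simp only [h4]
  refine h3.trans ?_
  have hT4 : 0 ≤ (Z ^ 4).trace := by
    have := Mat.trace_pow_even_nonneg c.symm 2
    simpa using this
  have h5 : 0 ≤ ∑ q ∈ adm F forb Zp Zm, (1 - hA n d k F forb Zp Zm q.1 q.2) :=
    Finset.sum_nonneg fun q _ => weight_nonneg E q.1 q.2
  have h6 : 0 ≤ 2 * (Z ^ 4).trace / (sR n : ℝ) ^ 2003 *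
      ∑ q ∈ adm F forb Zp Zm, (1 - hA n d k F forb Zp Zm q.1 q.2) := by positivity
  have hC : 0 ≤ g4.cs (κI d) + g4.cs (κII d) := add_nonneg (g4I_nonneg d) (g4II_nonneg d)
  have h7 : (Nk n d k - 2) * ((g4.cs (κI d) + g4.cs (κII d)) * (sR n : ℝ) ^ 2002) /
      (sR n : ℝ) ^ 2003 ≤ (g4.cs (κI d) + g4.cs (κII d)) * rT n d k := by
    rw [rT_eq hσ hN, div_le_iff₀ hc]
    have e : (g4.cs (κI d) + g4.cs (κII d)) * (Nk n d k / sR n) * (sR n : ℝ) ^ 2003 =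
        Nk n d k * ((g4.cs (κI d) + g4.cs (κII d)) * (sR n : ℝ) ^ 2002) := by
      rw [show (2003 : ℕ) = 2002 + 1 from rfl, pow_succ]
      field_simp
    rw [e]
    exact mul_le_mul_of_nonneg_right (by linarith) (by positivity)
  linarith

end Vale.Agent.P049.TS.T34
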