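import Vale.Agent.P049.TS.R902.A4
import Vale.Agent.P049.TS.Rate3.OneSided

/-!
**The rate of `A3c`** (`T₃` in phase IIIa).
-/

set_option linter.unusedSectionVars false
set_option exponentiation.threshold 3000

namespace Vale.Agent.P049.TS.RA3

open Matrix Finset T34 Vale.Agent.P049.TS.Asm

variable {ι : Type*} [Fintype ι] [DecidableEq ι]
variable {Z : Matrix ι ι ℝ} {F : Finset ι} {A : Finset (ι × ι)} {b t s v w x a1 e : ℝ}

/-- mean of the increment of `T₃`, uniform weights -/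
theorem T3_mean0 (c : Ct F Z b t s v w x a1) (hA : A ⊆ F ×ˢ F)
    (hadm : ∀ p ∈ A, p.1 ≠ p.2 ∧ PairOK Z p.1 p.2) (he : 0 ≤ e)
    (hE : (((F ×ˢ F) \ A).card : ℝ) ≤ e ^ 2) :
    |∑ p ∈ A, ((upd Z p.1 p.2 ^ 3).trace - (Z ^ 3).trace) -
      (6 * (Z.trace * ((Z ^ 4).trace - (Z ^ 2).trace)) +
        6 * (((Z ^ 2).trace - F.card) * ((Z ^ 3).trace - Z.trace)))| ≤
      err3 b t s v w x a1 e 0 := by
  have h1 := c.T3_mean (h := fun _ _ => 0) (e := e) (H := 0) hA hadm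
    (fun p _ => by norm_num) he le_rfl hE (by simp)
  simpa only [sub_zero, one_mul, zero_mul, Finset.sum_const_zero, mul_zero, add_zero] using h1

/-- **rate of `((ε T₃ - a)₊)² / K²`**, uniform weights, abstract form -/
theorem rate_T3_abs {eps N κ1 K a : ℝ} (c : Ct F Z b t s v w x a1)
    (heps : eps = 1 ∨ eps = -1) (hA : A ⊆ F ×ˢ F)
    (hadm : ∀ p ∈ A, p.1 ≠ p.2 ∧ PairOK Z p.1 p.2) (he : 0 ≤ e)
    (hE : (((F ×ˢ F) \ A).card : ℝ) ≤ e ^ 2) (hN : (F.card : ℝ) = N)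
    (h1 : eps * Z.trace ≤ 0) (h1' : |Z.trace| ≤ κ1) (h2 : (Z ^ 2).trace ≤ N)
    (t2 : 0 ≤ (Z ^ 2).trace) (t4 : 0 ≤ (Z ^ 4).trace) (hK : 0 < K) (ha : 0 ≤ a)
    (hx : eps * (Z ^ 3).trace - a ≤ K) :
    ∑ p ∈ A, ((max (eps * (upd Z p.1 p.2 ^ 3).trace - a) 0) ^ 2 / K ^ 2 -
        (max (eps * (Z ^ 3).trace - a) 0) ^ 2 / K ^ 2) ≤
      (2 * (6 * (κ1 * N)) + 2 * err3 b t s v w x a1 e 0) / K + sd3 b t s v w x a1 ^ 2 / K ^ 2 := by
  have m := T3_mean0 c hA hadm he hE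
  have q := c.T3_sq hA hadm
  rw [hN] at m
  have hκ : 0 ≤ κ1 := (abs_nonneg _).trans h1'
  have hN0 : 0 ≤ N := by rw [← hN]; exact Nat.cast_nonneg _
  have hr : 0 ≤ err3 b t s v w x a1 e 0 := (abs_nonneg _).trans m
  have heps1 : |eps| = 1 := by rcases heps with rfl | rfl <;> norm_num
  have heps2 : eps ^ 2 = 1 := by rcases heps with rfl | rfl <;> norm_num
  have p1 := Rate.sum_posq_le A (fun p => eps * (upd Z p.1 p.2 ^ 3).trace - a)
    (eps * (Z ^ 3).trace - a)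
  have e1 : ∀ p ∈ A, ((eps * (upd Z p.1 p.2 ^ 3).trace - a) - (eps * (Z ^ 3).trace - a)) =
      eps * ((upd Z p.1 p.2 ^ 3).trace - (Z ^ 3).trace) := fun p _ => by ring
  rw [Finset.sum_congr rfl e1,
    Finset.sum_congr rfl (fun p hp => by rw [e1 p hp, mul_pow, heps2, one_mul] :
      ∀ p ∈ A, ((eps * (upd Z p.1 p.2 ^ 3).trace - a) - (eps * (Z ^ 3).trace - a)) ^ 2 =
        ((upd Z p.1 p.2 ^ 3).trace - (Z ^ 3).trace) ^ 2), ← Finset.mul_sum] at p1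
  set S := ∑ p ∈ A, ((upd Z p.1 p.2 ^ 3).trace - (Z ^ 3).trace) with hS
  -- the main part
  have key : 2 * max (eps * (Z ^ 3).trace - a) 0 * (eps * S) ≤
      2 * K * (6 * (κ1 * N) + err3 b t s v w x a1 e 0) := by
    rcases le_total (eps * (Z ^ 3).trace - a) 0 with hy | hy
    · rw [max_eq_right hy, mul_zero, zero_mul]
      positivity
    · rw [max_eq_left hy]
      have hx3 : 0 ≤ eps * (Z ^ 3).trace := by linarith
      have g1 : eps * S ≤ eps * (6 * (Z.trace * ((Z ^ 4).trace - (Z ^ 2).trace)) +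
        6 * (((Z ^ 2).trace - N) * ((Z ^ 3).trace - Z.trace))) + err3 b t s v w x a1 e 0 := by
        have g2 : |eps * (S - (6 * (Z.trace * ((Z ^ 4).trace - (Z ^ 2).trace)) +
            6 * (((Z ^ 2).trace - N) * ((Z ^ 3).trace - Z.trace))))| ≤
            err3 b t s v w x a1 e 0 := by
          rw [abs_mul, heps1, one_mul]
          exact m
        have := (abs_le.1 g2).2
        linarith
      have g3 : 0 ≤ -(eps * Z.trace) := by linarith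
      have g4 : -(eps * Z.trace) ≤ κ1 := by
        have h5 := R902.abs_eps_mul heps Z.trace
        have h6 := neg_le_abs (eps * Z.trace)
        linarith
      have g5 : -(eps * Z.trace) * (Z ^ 2).trace ≤ κ1 * N := mul_le_mul g4 h2 t2 hκ
      have g6 : 0 ≤ -(eps * Z.trace) * (Z ^ 4).trace := mul_nonneg g3 t4
      have g7 : 0 ≤ (N - (Z ^ 2).trace) * (eps * (Z ^ 3).trace) :=
        mul_nonneg (by linarith) hx3
      have g8 : 0 ≤ (N - (Z ^ 2).trace) * (-(eps * Z.trace)) := mul_nonneg (by linarith) g3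
      have g9 : eps * S ≤ 6 * (κ1 * N) + err3 b t s v w x a1 e 0 := by
        have e2 : eps * (6 * (Z.trace * ((Z ^ 4).trace - (Z ^ 2).trace)) +
            6 * (((Z ^ 2).trace - N) * ((Z ^ 3).trace - Z.trace))) =
            -(6 * (-(eps * Z.trace) * (Z ^ 4).trace)) + 6 * (-(eps * Z.trace) * (Z ^ 2).trace) -
            6 * ((N - (Z ^ 2).trace) * (eps * (Z ^ 3).trace)) -
            6 * ((N - (Z ^ 2).trace) * (-(eps * Z.trace))) := by ring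
        linarith
      have g10 : 0 ≤ 6 * (κ1 * N) + err3 b t s v w x a1 e 0 := by positivity
      calc 2 * (eps * (Z ^ 3).trace - a) * (eps * S)
          ≤ 2 * (eps * (Z ^ 3).trace - a) * (6 * (κ1 * N) + err3 b t s v w x a1 e 0) :=
            mul_le_mul_of_nonneg_left g9 (by linarith)
        _ ≤ _ := mul_le_mul_of_nonneg_right (by linarith) g10
  have e3 : ∑ p ∈ A, ((max (eps * (upd Z p.1 p.2 ^ 3).trace - a) 0) ^ 2 / K ^ 2 -
        (max (eps * (Z ^ 3).trace - a) 0) ^ 2 / K ^ 2) =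
      (∑ p ∈ A, ((max (eps * (upd Z p.1 p.2 ^ 3).trace - a) 0) ^ 2 -
        (max (eps * (Z ^ 3).trace - a) 0) ^ 2)) / K ^ 2 := by
    rw [Finset.sum_div]
    exact Finset.sum_congr rfl fun p _ => by rw [sub_div]
  rw [e3, div_le_iff₀ (by positivity)]
  have e4 : ((2 * (6 * (κ1 * N)) + 2 * err3 b t s v w x a1 e 0) / K +
      sd3 b t s v w x a1 ^ 2 / K ^ 2) * K ^ 2 =
      2 * K * (6 * (κ1 * N) + err3 b t s v w x a1 e 0) + sd3 b t s v w x a1 ^ 2 := by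
    field_simp
  rw [e4]
  linarith

/-! ### exponents -/

open R902 in
/-- the mean part -/
abbrev eM3 : Ex := 2 * (6 * (.v 9 * .v 11)) + e3

open R902 in
theorem eM3_ev (b t s v w x a1 e H κ1 κ3 N T4 : ℝ) :
    2 * (6 * (κ1 * N)) + 2 * err3 b t s v w x a1 e H =
      eM3.ev (env4 b t s v w x a1 e H κ1 κ3 N T4) := by
  have h := err3_ev b t s v w x a1 e H
  have h2 : e3.ev (envv b t s v w x a1 e H) = e3.ev (env4 b t s v w x a1 e H κ1 κ3 N T4) := by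
    simp only [e3, err3E, QbE, Ex.ev_add, Ex.ev_mul, Ex.ev_pow, Ex.ev_ofNat, Ex.ev_v, envv, env4]
  rw [h2] at h
  rw [h]
  simp only [eM3, Ex.ev_add, Ex.ev_mul, Ex.ev_ofNat, Ex.ev_v, env4]
  push_cast
  ring

open R902 in
theorem e5_ev (b t s v w x a1 e H κ1 κ3 N T4 : ℝ) :
    sd3 b t s v w x a1 ^ 2 = (e5 ^ 2 : Ex).ev (env4 b t s v w x a1 e H κ1 κ3 N T4) := by
  have h := sd3_ev b t s v w x a1 e H
  have h2 : e5.ev (envv b t s v w x a1 e H) = e5.ev (env4 b t s v w x a1 e H κ1 κ3 N T4) := by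
    simp only [e5, sd3E, N01E, QbE, Ex.ev_add, Ex.ev_mul, Ex.ev_pow, Ex.ev_ofNat, Ex.ev_v, envv,
      env4]
  rw [h2] at h
  rw [h, Ex.ev_pow]

open R902

theorem eM3_z1 : eM3.y zC1 ≤ 6716 := by decide
theorem eM3_z2 : eM3.y zC2 ≤ 6792 := by decide
theorem e5_z1 : (e5 ^ 2 : Ex).y zC1 ≤ 10716 := by decide
theorem e5_z2 : (e5 ^ 2 : Ex).y zC2 ≤ 10792 := by decide

/-- the constant of the rate -/
noncomputable def KA3 (c : ℝ) : ℝ := eM3.cs (fun _ => c) + (e5 ^ 2 : Ex).cs (fun _ => c)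

theorem A3_num {L X c : ℝ} (R : Rg L X 680 699) (hc : 0 ≤ c)
    {b t s v w x a1 e N κ1 K : ℝ}
    (b0 : 0 ≤ b) (hb : b ≤ c * Asm.Em L X 680 699 1325 1306)
    (t0 : 0 ≤ t) (ht : t ≤ c * Asm.Em L X 680 699 1360 1398)
    (s0 : 0 ≤ s) (hs : s ≤ c * Asm.Em L X 680 699 232 232)
    (v0 : 0 ≤ v) (hv : v ≤ c * Asm.Em L X 680 699 1402 1402)
    (w0 : 0 ≤ w) (hw : w ≤ c * Asm.Em L X 680 699 1400 1400)
    (x0 : 0 ≤ x) (hx : x ≤ c * Asm.Em L X 680 699 2650 2612)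
    (a0 : 0 ≤ a1) (ha : a1 ≤ c * Asm.Em L X 680 699 2726 2707)
    (e0 : 0 ≤ e) (he : e ≤ c * Asm.Em L X 680 699 1360 1398)
    (k0 : 0 ≤ κ1) (hk : κ1 ≤ c * Asm.Em L X 680 699 1536 1536)
    (n0 : 0 ≤ N) (hn' : N ≤ c * Asm.Em L X 680 699 2720 2796)
    (hK : K = Asm.Em L X 680 699 4000 4000) :
    (2 * (6 * (κ1 * N)) + 2 * err3 b t s v w x a1 e 0) / K + sd3 b t s v w x a1 ^ 2 / K ^ 2 ≤
      KA3 c * Asm.Em L X 680 699 2716 2792 := by
  have hz : ∀ y1 y2 : ℤ, (0 : ℝ) ≤ c * Asm.Em L X 680 699 y1 y2 := fun y1 y2 =>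
    mul_nonneg hc (Em_pos _ _ _ _ _ _).le
  set ρ := env4 b t s v w x a1 e 0 κ1 0 N 0 with hρd
  have hρ : ∀ i, 0 ≤ ρ i := by
    intro i
    match i with
    | 0 => exact b0
    | 1 => exact t0
    | 2 => exact s0
    | 3 => exact v0
    | 4 => exact w0
    | 5 => exact x0
    | 6 => exact a0
    | 7 => exact e0
    | 8 => exact le_rfl
    | 9 => exact k0
    | 10 => exact le_rfl
    | 11 => exact n0
    | 12 => exact le_rfl
    | (_ + 13) => exact le_rfl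
  have hb' : ∀ i, ρ i ≤ (fun _ => c) i * Asm.Em L X 680 699 (zC1 i) (zC2 i) := by
    intro i
    match i with
    | 0 => exact hb
    | 1 => exact ht
    | 2 => exact hs
    | 3 => exact hv
    | 4 => exact hw
    | 5 => exact hx
    | 6 => exact ha
    | 7 => exact he
    | 8 => exact hz _ _
    | 9 => exact hk
    | 10 => exact hz _ _
    | 11 => exact hn'
    | 12 => exact hz _ _
    | (_ + 13) => exact hz _ _
  have h1 := Ex.bound eM3 R (ρ := ρ) (κ := fun _ => c) zC1 zC2 eM3_z1 eM3_z2 hρ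
    (fun _ => hc) hb'
  have h2 := Ex.bound (e5 ^ 2 : Ex) R (ρ := ρ) (κ := fun _ => c) zC1 zC2 e5_z1 e5_z2 hρ
    (fun _ => hc) hb'
  rw [← eM3_ev] at h1
  rw [← e5_ev] at h2
  have hK0 : 0 < K := by rw [hK]; exact Em_pos _ _ _ _ _ _
  have e1 : Asm.Em L X 680 699 6716 6792 = Asm.Em L X 680 699 2716 2792 * K := by
    rw [hK, Em_mul]; norm_num
  have e2 : Asm.Em L X 680 699 10716 10792 = Asm.Em L X 680 699 2716 2792 * K ^ 2 := by
    rw [hK, Em_pow, Em_mul]; norm_num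
  rw [e1] at h1
  rw [e2] at h2
  unfold KA3
  rw [add_mul]
  refine add_le_add ((div_le_iff₀ hK0).2 (h1.trans_eq ?_))
    ((div_le_iff₀ (pow_pos hK0 2)).2 (h2.trans_eq ?_))
  · ring
  · ring

/-- **rate of `A3c` in phase IIIa**, from bounds of all parameters -/
theorem rate_A3_core {L X c eps N κ1 K a : ℝ} (R : Rg L X 680 699) (hc : 1 ≤ c)
    (ctl : D12.Ctl F Z b t s v w) (heps : eps = 1 ∨ eps = -1) (hA : A ⊆ F ×ˢ F)
    (hadm : ∀ p ∈ A, p.1 ≠ p.2 ∧ PairOK Z p.1 p.2) (he : 0 ≤ e)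
    (hE : (((F ×ˢ F) \ A).card : ℝ) ≤ e ^ 2) (hN : (F.card : ℝ) = N)
    (h1 : eps * Z.trace ≤ 0) (h1' : |Z.trace| ≤ κ1)
    (h2 : (Z ^ 2).trace ≤ N) (ha : 0 ≤ a) (hx : eps * (Z ^ 3).trace - a ≤ K)
    (hb : b ≤ c * Asm.Em L X 680 699 1325 1306)
    (ht : t ≤ c * Asm.Em L X 680 699 1360 1398)
    (hs' : s ≤ c * Asm.Em L X 680 699 232 232)
    (hv : v ≤ c * Asm.Em L X 680 699 1402 1402)
    (hw : w ≤ c * Asm.Em L X 680 699 1400 1400)
    (he' : e ≤ c * Asm.Em L X 680 699 1360 1398)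
    (hk : κ1 ≤ c * Asm.Em L X 680 699 1536 1536)
    (hn : N = Asm.Em L X 680 699 2720 2796)
    (hK : K = Asm.Em L X 680 699 4000 4000) :
    ∑ p ∈ A, ((max (eps * (upd Z p.1 p.2 ^ 3).trace - a) 0) ^ 2 / K ^ 2 -
        (max (eps * (Z ^ 3).trace - a) 0) ^ 2 / K ^ 2) ≤
      KA3 (c + c ^ 2 + Ka1 c) * Asm.Em L X 680 699 2716 2792 := by
  have hc0 : 0 ≤ c := by linarith
  obtain ⟨a1, a0, ha1, ha'⟩ := exists_a1 R hc0 ctl.b0 hb ctl.s0 hs' ctl.v0 hv ctl.w0 hw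
  have ct := Ctl.ct ctl a0 ha1
  have hK1 : 0 ≤ Ka1 c := Ka1_nonneg hc0
  have c20 : 0 ≤ c ^ 2 := sq_nonneg c
  obtain ⟨M, hM⟩ : ∃ M, M = c + c ^ 2 + Ka1 c := ⟨_, rfl⟩
  rw [← hM]
  have cK : c ≤ M := by rw [hM]; linarith
  have c2K : c ^ 2 ≤ M := by rw [hM]; linarith
  have c3K : Ka1 c ≤ M := by rw [hM]; linarith
  have hM0 : 0 ≤ M := by linarith
  have up : ∀ {y r : ℝ} {y1 y2 : ℤ}, r ≤ M → y ≤ r * Asm.Em L X 680 699 y1 y2 →
      y ≤ M * Asm.Em L X 680 699 y1 y2 := fun hr hy =>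
    hy.trans (mul_le_mul_of_nonneg_right hr (Em_pos _ _ _ _ _ _).le)
  have t4 : 0 ≤ (Z ^ 4).trace := by
    have := Mat.trace_pow_even_nonneg ctl.symm 2
    simpa using this
  have t2 : 0 ≤ (Z ^ 2).trace := by
    have := Mat.trace_pow_even_nonneg ctl.symm 1
    simpa using this
  have hκ1 : 0 ≤ κ1 := (abs_nonneg _).trans h1'
  have hN0 : 0 ≤ N := by rw [← hN]; exact Nat.cast_nonneg _
  have hx' : b ^ 2 ≤ c ^ 2 * Asm.Em L X 680 699 2650 2612 := by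
    have e1 : Asm.Em L X 680 699 2650 2612 = Asm.Em L X 680 699 1325 1306 ^ 2 := by
      rw [Em_pow]; norm_num
    rw [e1, ← mul_pow]
    exact pow_le_pow_left₀ ctl.b0 hb 2
  have hn' : N ≤ c * Asm.Em L X 680 699 2720 2796 := by
    rw [hn]
    exact le_mul_of_one_le hc (Em_pos _ _ _ _ _ _).le
  have hK0 : 0 < K := by rw [hK]; exact Em_pos _ _ _ _ _ _
  have n2 := A3_num R hM0 ctl.b0 (up cK hb) ctl.t0 (up cK ht) ctl.s0 (up cK hs') ctl.v0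
    (up cK hv) ctl.w0 (up cK hw) (sq_nonneg b) (up c2K hx') a0 (up c3K ha') he (up cK he')
    hκ1 (up cK hk) hN0 (up cK hn') hK
  exact (rate_T3_abs ct heps hA hadm he hE hN h1 h1' h2 t2 t4 hK0 ha hx).trans n2

variable {n d k : ℕ} {ε : ℝ} {Zp Zm : Matrix ι ι ℝ} {forb : ι → ι → Prop}

/-- **rate of `A3c`** for one sign -/
theorem rate_A3_one (hσ : 2000 ≤ sR n) (hk2 : k2 n d ≤ k) (hk : k < k3 n d)
    (hcard : (F.card : ℝ) = Nk n d k) (hε : ε = 1 ∨ ε = -1) (h : OneC n d k ε F Z)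
    (hA : A ⊆ F ×ˢ F) (hadm : ∀ p ∈ A, p.1 ≠ p.2 ∧ PairOK Z p.1 p.2)
    (hE : (((F ×ˢ F) \ A).card : ℝ) ≤ eC n d k ^ 2) {c : ℝ} (hc1 : 1 ≤ c) (hc2 : 2 ≤ c)
    (hc3 : (d : ℝ) + 25 ≤ c) (hc4 : 5 * (d : ℝ) ^ 2 + 1 ≤ c) :
    ∑ p ∈ A, (A3c n d ε (upd Z p.1 p.2) - A3c n d ε Z) ≤
      KA3 (c + c ^ 2 + Ka1 c) * rT n d k := by
  have R := rg3 hσ hk2 hk
  have hN : 0 < Nk n d k := lt_of_le_of_lt (by positivity) (Nk_gt3 hk)
  have pos : ∀ y1 y2 : ℤ, 0 ≤ Asm.Em (LL n) (XX n d k) 680 699 y1 y2 :=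
    fun y1 y2 => (Em_pos _ _ _ _ _ _).le
  have e384 : (sR n : ℝ) ^ 384 = Asm.Em (LL n) (XX n d k) 680 699 1536 1536 := by
    rw [sR_pow_Em hσ (X := XX n d k) (xl := 680) (xh := 699) (by norm_num) 384]; norm_num
  have e1000 : (sR n : ℝ) ^ 1000 = Asm.Em (LL n) (XX n d k) 680 699 4000 4000 := by
    rw [sR_pow_Em hσ (X := XX n d k) (xl := 680) (xh := 699) (by norm_num) 1000]; norm_num
  obtain ⟨t1, t1'⟩ := T1_abs hσ hN hε h
  have b3 : sC n d k ≤ c * Asm.Em (LL n) (XX n d k) 680 699 232 232 := by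
    rw [sC_Em]
    exact (Em_le R (show (208 : ℤ) ≤ 232 by norm_num) (show (208 : ℤ) ≤ 232 by norm_num)).trans
      (le_mul_of_one_le hc1 (pos _ _))
  have hσ0 : (0 : ℝ) ≤ (sR n : ℝ) ^ 1000 := by rw [e1000]; exact pos _ _
  have key := rate_A3_core (K := (sR n : ℝ) ^ 1000) (a := 3 * (d : ℝ) ^ 2 * (sR n : ℝ) ^ 1000)
    R hc1 (R3.ctlC h) hε hA hadm (eC_nonneg n d k) hE
    hcard t1 t1' h.T2_le (by positivity) (by linarith [h.T3_le])
    (by rw [bC_Em]; exact le_mul_of_one_le hc1 (pos _ _))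
    (tC_Em.trans (mul_le_mul_of_nonneg_right hc2 (pos _ _))) b3
    (by rw [vC_Em]; exact le_mul_of_one_le hc1 (pos _ _))
    (by rw [wC_Em]; exact le_mul_of_one_le hc1 (pos _ _))
    (by rw [eC_Em]; exact mul_le_mul_of_nonneg_right hc3 (pos _ _))
    (by rw [e384]; exact mul_le_mul_of_nonneg_right hc4 (pos _ _)) (Nk_Em hN) e1000
  rw [rT_Em]
  refine le_trans (le_of_eq ?_) key
  refine Finset.sum_congr rfl fun p _ => ?_
  have e2 : ((sR n : ℝ) ^ 1000) ^ 2 = (sR n : ℝ) ^ 2000 := by rw [← pow_mul]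
  unfold A3c
  rw [e2]

/-- **the rate lemma of `A3c`** (`T₃` in phase IIIa) -/
theorem rate_A3 (d : ℕ) (_hd : 3 ≤ d) : ∃ C : ℝ, ∃ s0 : ℕ, ∀ (ι : Type*) [Fintype ι]
    [DecidableEq ι] (n k : ℕ) (F : Finset ι) (Zp Zm : Matrix ι ι ℝ) (forb : ι → ι → Prop),
    s0 ≤ sR n → EnvC n d k F Zp Zm forb → ∀ (ε : ℝ) (Z : Matrix ι ι ℝ), Sgn Zp Zm ε Z →
      ∑ p ∈ adm F forb Zp Zm, (A3c n d ε (upd Z p.1 p.2) - A3c n d ε Z) ≤
        C * rT n d k := by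
  have hd0 : (0 : ℝ) ≤ d := Nat.cast_nonneg d
  obtain ⟨c, hc⟩ : ∃ c, c = 5 * (d : ℝ) ^ 2 + d + 30 := ⟨_, rfl⟩
  refine ⟨KA3 (c + c ^ 2 + Ka1 c), 2000, ?_⟩
  intro ι _ _ n k F Zp Zm forb hσ h ε Z hs
  have h1 : ε = 1 ∨ ε = -1 := by
    rcases hs with ⟨rfl, rfl⟩ | ⟨rfl, rfl⟩
    · exact Or.inl rfl
    · exact Or.inr rfl
  have h2 : OneC n d k ε F Z := by
    rcases hs with ⟨rfl, rfl⟩ | ⟨rfl, rfl⟩
    · exact h.p
    · exact h.m
  have h0 : (0 : ℝ) ≤ (d : ℝ) ^ 2 := sq_nonneg _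
  exact rate_A3_one hσ h.k_ge h.k_lt h.card h1 h2 (adm_subset F forb Zp Zm)
    (adm_ok Zp Zm hs) (R3.card_compl_le3 h (by omega)) (c := c)
    (by linarith) (by linarith) (by linarith) (by linarith)

end Vale.Agent.P049.TS.RA3
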