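import Mathlib

/-!
A small calculus of `ℓ²` bounds: `L2 A f K` means `‖f‖_{ℓ²(A)} ≤ K`.
-/

namespace Vale.Agent.P049.TS.T34

open Finset

/-- `ℓ²` bound -/
def L2 {α : Type*} (A : Finset α) (f : α → ℝ) (K : ℝ) : Prop := 0 ≤ K ∧ ∑ p ∈ A, f p ^ 2 ≤ K ^ 2

variable {α ι : Type*} {A B : Finset α} {f g : α → ℝ} {K L G : ℝ}

theorem L2.nonneg (h : L2 A f K) : 0 ≤ K := h.1

theorem L2.sum_mul_le (hf : L2 A f K) (hg : L2 A g L) : ∑ p ∈ A, |f p| * |g p| ≤ K * L := by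
  have h1 := Finset.sum_mul_sq_le_sq_mul_sq A (fun p => |f p|) (fun p => |g p|)
  simp only [sq_abs] at h1
  have h2 : (∑ p ∈ A, f p ^ 2) * ∑ p ∈ A, g p ^ 2 ≤ K ^ 2 * L ^ 2 :=
    mul_le_mul hf.2 hg.2 (Finset.sum_nonneg fun _ _ => sq_nonneg _) (sq_nonneg _)
  rw [← mul_pow] at h2
  exact le_of_sq_le_sq' (h1.trans h2) (mul_nonneg hf.1 hg.1)
where
  le_of_sq_le_sq' {x y : ℝ} (h : x ^ 2 ≤ y ^ 2) (hy : 0 ≤ y) : x ≤ y :=
    (le_abs_self x).trans (abs_le_of_sq_le_sq h hy)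

theorem L2.abs_sum_mul_le (hf : L2 A f K) (hg : L2 A g L) : |∑ p ∈ A, f p * g p| ≤ K * L := by
  refine (Finset.abs_sum_le_sum_abs _ _).trans (le_trans (le_of_eq ?_) (hf.sum_mul_le hg))
  exact Finset.sum_congr rfl fun p _ => abs_mul _ _

theorem L2.of_le (hg : L2 A g K) (h : ∀ p ∈ A, |f p| ≤ |g p|) : L2 A f K := by
  refine ⟨hg.1, (Finset.sum_le_sum fun p hp => ?_).trans hg.2⟩
  exact sq_le_sq.2 (h p hp)

theorem L2.mono (hf : L2 A f K) (h : K ≤ L) : L2 A f L :=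
  ⟨hf.1.trans h, hf.2.trans (pow_le_pow_left₀ hf.1 h 2)⟩

theorem L2.subset (hf : L2 B f K) (h : A ⊆ B) : L2 A f K :=
  ⟨hf.1, (Finset.sum_le_sum_of_subset_of_nonneg h fun _ _ _ => sq_nonneg _).trans hf.2⟩

theorem L2.abs (hf : L2 A f K) : L2 A (fun p => |f p|) K :=
  hf.of_le fun p _ => by rw [abs_abs]

theorem L2.add (hf : L2 A f K) (hg : L2 A g L) : L2 A (fun p => f p + g p) (K + L) := by
  refine ⟨add_nonneg hf.1 hg.1, ?_⟩
  have h1 := hf.abs_sum_mul_le hg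
  have h2 := (abs_le.1 h1).2
  have e : ∑ p ∈ A, (f p + g p) ^ 2 =
      ∑ p ∈ A, f p ^ 2 + 2 * ∑ p ∈ A, f p * g p + ∑ p ∈ A, g p ^ 2 := by
    rw [Finset.mul_sum, ← Finset.sum_add_distrib, ← Finset.sum_add_distrib]
    exact Finset.sum_congr rfl fun p _ => by ring
  rw [e]
  nlinarith [hf.2, hg.2]

theorem L2.smul (hf : L2 A f K) {c : ℝ} (hc : 0 ≤ c) : L2 A (fun p => c * f p) (c * K) := by
  refine ⟨mul_nonneg hc hf.1, ?_⟩
  have e : ∑ p ∈ A, (c * f p) ^ 2 = c ^ 2 * ∑ p ∈ A, f p ^ 2 := by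
    rw [Finset.mul_sum]; exact Finset.sum_congr rfl fun p _ => by ring
  rw [e, mul_pow]
  exact mul_le_mul_of_nonneg_left hf.2 (sq_nonneg c)

/-- product of two arrays -/
theorem L2.mul (hf : L2 A f K) (hg : L2 A g L) : L2 A (fun p => f p * g p) (K * L) := by
  refine ⟨mul_nonneg hf.1 hg.1, ?_⟩
  have h1 : ∑ p ∈ A, (f p * g p) ^ 2 ≤ (∑ p ∈ A, f p ^ 2) * ∑ p ∈ A, g p ^ 2 := by
    rw [Finset.sum_mul]
    refine Finset.sum_le_sum fun p hp => ?_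
    rw [mul_pow]
    exact mul_le_mul_of_nonneg_left
      (Finset.single_le_sum (f := fun p => g p ^ 2) (fun _ _ => sq_nonneg _) hp) (sq_nonneg _)
  refine h1.trans ?_
  rw [mul_pow]
  exact mul_le_mul hf.2 hg.2 (Finset.sum_nonneg fun _ _ => sq_nonneg _) (sq_nonneg _)

/-- product with a bounded array -/
theorem L2.mul_bd (hf : L2 A f K) (hG : 0 ≤ G) (hg : ∀ p ∈ A, |g p| ≤ G) :
    L2 A (fun p => g p * f p) (G * K) := by
  refine (hf.smul hG).of_le fun p hp => ?_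
  rw [abs_mul, abs_mul, abs_of_nonneg hG]
  exact mul_le_mul_of_nonneg_right (hg p hp) (abs_nonneg _)

theorem L2.sum_abs_le (hf : L2 A f K) (hone : L2 A (fun _ => (1 : ℝ)) L) :
    ∑ p ∈ A, |f p| ≤ L * K := by
  have := hone.sum_mul_le hf
  simpa using this

theorem L2.one_of_card (hL : 0 ≤ L) (h : (A.card : ℝ) ≤ L ^ 2) : L2 A (fun _ => (1 : ℝ)) L :=
  ⟨hL, by simpa using h⟩

/-- tensor products -/
theorem L2.pair {F : Finset ι} {x y : ι → ℝ} (hx : L2 F x K) (hy : L2 F y L) :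
    L2 (F ×ˢ F) (fun p => x p.1 * y p.2) (K * L) := by
  refine ⟨mul_nonneg hx.1 hy.1, ?_⟩
  have e : ∑ p ∈ F ×ˢ F, (x p.1 * y p.2) ^ 2 = (∑ a ∈ F, x a ^ 2) * ∑ b ∈ F, y b ^ 2 := by
    rw [Finset.sum_product, Finset.sum_mul_sum]
    exact Finset.sum_congr rfl fun a _ => Finset.sum_congr rfl fun b _ => by ring
  rw [e, mul_pow]
  exact mul_le_mul hx.2 hy.2 (Finset.sum_nonneg fun _ _ => sq_nonneg _) (sq_nonneg _)

theorem L2.pair' {F : Finset ι} {x y : ι → ℝ} (hx : L2 F x K) (hy : L2 F y L) :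
    L2 (F ×ˢ F) (fun p => x p.2 * y p.1) (K * L) := by
  have h := hy.pair hx
  rw [mul_comm L K] at h
  exact h.of_le fun p _ => by rw [mul_comm]

end Vale.Agent.P049.TS.T34
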