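import Vale.Agent.P049.TS.T34.Pair
import Vale.Agent.P049.TS.T34.L2
import Vale.Agent.P049.TS.Drift.T12d

/-!
Array norms for the drift lemmas of `T₃` and `T₄`.
-/

set_option linter.unusedSectionVars false

namespace Vale.Agent.P049.TS.T34

open Matrix Finset D12

variable {ι : Type*} [Fintype ι] [DecidableEq ι]

variable {Z : Matrix ι ι ℝ} {F : Finset ι} {A : Finset (ι × ι)}

theorem rh_eq (Z : Matrix ι ι ℝ) (j : ℕ) (a b : ι) :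
    rh Z j a b = (Z ^ (j + 2)) a b - (Z ^ j) a b := by
  have : rh Z j a b = Xk Z j a b := rfl
  rw [this, Xk_eq, Matrix.sub_apply]

/-- hypotheses on the current matrix. `‖Z‖⁴ ≤ T₄ ≤ b⁴`, and `ℓ²` norms: `Z` on `F × F`: `t`,
`Z² - 1` on `F × F`: `x`, diagonals of `Z`, `Z² - 1`, `Z²`, `Z³ - Z`: `s, v, w, a1`. -/
structure Ct (F : Finset ι) (Z : Matrix ι ι ℝ) (b t s v w x a1 : ℝ) : Prop where
  symm : Z.IsSymm
  supp : ∀ a, a ∉ F → ∀ b, Z a b = 0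
  row : ∀ a ∈ F, ∑ b, Z a b = 1
  b0 : 0 ≤ b
  T4 : (Z ^ 4).trace ≤ b ^ 4
  Zt : L2 (F ×ˢ F) (fun p => Z p.1 p.2) t
  X0 : L2 (F ×ˢ F) (fun p => rh Z 0 p.1 p.2) x
  S : L2 F (fun a => Z a a) s
  V : L2 F (fun a => rh Z 0 a a) v
  W : L2 F (fun a => (Z ^ 2) a a) w
  A1 : L2 F (fun a => rh Z 1 a a) a1

variable {b t s v w x a1 : ℝ}

theorem Ct.opB (c : Ct F Z b t s v w x a1) : Mat.OpB Z b := Mat.opB_of_trace_four c.symm c.T4

theorem Ct.rho (c : Ct F Z b t s v w x a1) (j : ℕ) :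
    L2 (F ×ˢ F) (fun p => rh Z j p.1 p.2) (b ^ j * x) := by
  have h1 := fr_Xk_le c.symm c.supp c.b0 c.opB j
  have h2 : fr F (Xk Z 0) ≤ x :=
    (abs_le_of_sq_le_sq' ((fr_sq F (Xk Z 0)).trans_le c.X0.2) c.X0.1).2
  have hb := pow_nonneg c.b0 j
  have h3 : fr F (Xk Z j) ≤ b ^ j * x := h1.trans (mul_le_mul_of_nonneg_left h2 hb)
  refine ⟨mul_nonneg hb c.X0.1, ?_⟩
  have h4 := fr_sq F (Xk Z j)
  have h5 := pow_le_pow_left₀ (fr_nonneg F (Xk Z j)) h3 2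
  exact h4.symm.trans_le h5

theorem Ct.w_nonneg (c : Ct F Z b t s v w x a1) (a : ι) : 0 ≤ (Z ^ 2) a a :=
  Mat.sq_diag_nonneg c.symm a

theorem Ct.al2 (c : Ct F Z b t s v w x a1) :
    L2 F (fun a => rh Z 2 a a) ((b ^ 2 + 1) * w) := by
  have h0 : (0 : ℝ) ≤ b ^ 2 + 1 := by positivity
  refine (c.W.smul h0).of_le fun a _ => ?_
  have h1 := c.opB.pow_diag_le c.symm c.b0 2 a
  have h2 := c.w_nonneg a
  rw [rh_eq, abs_of_nonneg (mul_nonneg h0 h2)]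
  refine (abs_sub _ _).trans ?_
  rw [abs_of_nonneg h2]
  linarith

theorem Ct.al3 (c : Ct F Z b t s v w x a1) :
    L2 F (fun a => rh Z 3 a a) (b * (b ^ 2 + 1) * w) := by
  have h0 : (0 : ℝ) ≤ b * (b ^ 2 + 1) := mul_nonneg c.b0 (by positivity)
  refine (c.W.smul h0).of_le fun a _ => ?_
  have h1 := c.opB.pow_diag_le c.symm c.b0 3 a
  have h1' := c.opB.pow_diag_le c.symm c.b0 1 a
  have h2 := c.w_nonneg a
  rw [rh_eq, abs_of_nonneg (mul_nonneg h0 h2)]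
  refine (abs_sub _ _).trans ?_
  have e : b * (b ^ 2 + 1) * (Z ^ 2) a a = b ^ 3 * (Z ^ 2) a a + b ^ 1 * (Z ^ 2) a a := by ring
  rw [e]
  exact add_le_add h1 h1'

theorem rh0_ne {a b : ι} (hab : a ≠ b) : rh Z 0 a b = (Z ^ 2) a b := by
  rw [rh_eq, pow_zero, Matrix.one_apply_ne hab, sub_zero]

theorem Ct.rho0sq (c : Ct F Z b t s v w x a1) (hA : A ⊆ F ×ˢ F) (hne : ∀ p ∈ A, p.1 ≠ p.2) :
    L2 A (fun p => rh Z 0 p.1 p.2 ^ 2) (w ^ 2) := by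
  have h1 := (c.W.pair c.W).subset hA
  rw [← sq] at h1
  refine h1.of_le fun p hp => ?_
  rw [rh0_ne (hne p hp)]
  have h2 := c.w_nonneg p.1
  have h3 := c.w_nonneg p.2
  rw [abs_of_nonneg (sq_nonneg _), abs_of_nonneg (mul_nonneg h2 h3)]
  have h4 := c.opB.pow_apply_le c.symm c.b0 0 p.1 p.2
  have h5 := pow_le_pow_left₀ (abs_nonneg _) h4 2
  rw [sq_abs, pow_zero, one_mul, mul_pow, Real.sq_sqrt h2, Real.sq_sqrt h3] at h5
  exact h5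

/-! ### traces -/

theorem Ct.sum_diag0 (c : Ct F Z b t s v w x a1) :
    ∑ a ∈ F, rh Z 0 a a = (Z ^ 2).trace - F.card := sum_diag_X0 c.supp

theorem Ct.sum_diag1 (c : Ct F Z b t s v w x a1) :
    ∑ a ∈ F, rh Z 1 a a = (Z ^ 3).trace - Z.trace := sum_diag_X1 c.supp

theorem Ct.sum_diagZ (c : Ct F Z b t s v w x a1) : ∑ a ∈ F, Z a a = Z.trace := sum_diag_F c.supp

theorem Ct.supp' (c : Ct F Z b t s v w x a1) : Supp F Z := c.supp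

theorem Ct.sum_diag2 (c : Ct F Z b t s v w x a1) :
    ∑ a ∈ F, rh Z 2 a a = (Z ^ 4).trace - (Z ^ 2).trace := by
  have h1 := sum_diag_F (c.supp'.pow 3)
  have h2 := sum_diag_F (c.supp'.pow 1)
  simp only [rh_eq, Finset.sum_sub_distrib]
  rw [← h1, ← h2]

theorem Ct.sum_diag3 (c : Ct F Z b t s v w x a1) :
    ∑ a ∈ F, rh Z 3 a a = (Z ^ 5).trace - (Z ^ 3).trace := by
  have h1 := sum_diag_F (c.supp'.pow 4)
  have h2 := sum_diag_F (c.supp'.pow 2)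
  simp only [rh_eq, Finset.sum_sub_distrib]
  rw [← h1, ← h2]

theorem Ct.sum_rho (c : Ct F Z b t s v w x a1) (j : ℕ) :
    ∑ p ∈ F ×ˢ F, rh Z j p.1 p.2 = 0 := sum_Xk c.supp c.symm c.row j

theorem sum_pair (x y : ι → ℝ) (F : Finset ι) :
    ∑ p ∈ F ×ˢ F, x p.1 * y p.2 = (∑ a ∈ F, x a) * ∑ a ∈ F, y a := by
  rw [Finset.sum_product, Finset.sum_mul_sum]

theorem sum_pair' (x y : ι → ℝ) (F : Finset ι) :
    ∑ p ∈ F ×ˢ F, x p.2 * y p.1 = (∑ a ∈ F, x a) * ∑ a ∈ F, y a := by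
  rw [mul_comm (∑ a ∈ F, x a), ← sum_pair]
  exact Finset.sum_congr rfl fun p _ => mul_comm _ _

/-! ### from `Ctl` to `Ct` -/

/-- `Σ ((Z³)_aa)² ≤ T₄ + Σ g_a (Z⁴)_aa ≤ b⁴ + v b² w` -/
theorem sum_cube_diag_sq_le (c : Ctl F Z b t s v w) :
    ∑ a ∈ F, (Z ^ 3) a a ^ 2 ≤ b ^ 4 + v * (b ^ 2 * w) := by
  have hop := c.opB
  -- pointwise: ((Z³)_aa)² ≤ w_a (Z⁴)_aa
  have h1 : ∀ a ∈ F, (Z ^ 3) a a ^ 2 ≤ (Z ^ 2) a a * (Z ^ 4) a a := by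
    intro a _
    have e3 : (Z ^ 3) a a = ∑ j, Z a j * (Z ^ 2) j a := by
      rw [show (3 : ℕ) = 1 + 2 from rfl, pow_add, pow_one, Matrix.mul_apply]
    have e2 : (Z ^ 2) a a = ∑ j, Z a j ^ 2 := Mat.sq_diag_eq_sum c.symm a
    have e4 : (Z ^ 4) a a = ∑ j, (Z ^ 2) j a ^ 2 := by
      have h := Mat.pow_even_diag c.symm 2 a
      have e : (Z ^ 4) a a = ∑ j, (Z ^ 2) a j ^ 2 := h
      rw [e]
      exact Finset.sum_congr rfl fun j _ => by rw [(symm_pow c.symm 2).apply a j]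
    rw [e3, e2, e4]
    exact Finset.sum_mul_sq_le_sq_mul_sq _ _ _
  have h2 : ∑ a ∈ F, (Z ^ 3) a a ^ 2 ≤
      ∑ a ∈ F, (Z ^ 4) a a + ∑ a ∈ F, ((Z ^ 2) a a - 1) * (Z ^ 4) a a := by
    rw [← Finset.sum_add_distrib]
    refine Finset.sum_le_sum fun a ha => (h1 a ha).trans (le_of_eq (by ring))
  have h3 : ∑ a ∈ F, (Z ^ 4) a a = (Z ^ 4).trace :=
    sum_diag_F (Supp.pow (show Supp F Z from c.supp) 3)
  have h4 : L2 F (fun a => (Z ^ 2) a a - 1) v := ⟨c.v0, c.V⟩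
  have h5 : L2 F (fun a => (Z ^ 4) a a) (b ^ 2 * w) := by
    have hw : L2 F (fun a => (Z ^ 2) a a) w := ⟨c.w0, c.W⟩
    refine (hw.smul (sq_nonneg b)).of_le fun a _ => ?_
    have h6 := hop.pow_diag_le c.symm c.b0 2 a
    rw [abs_of_nonneg (mul_nonneg (sq_nonneg b) (Mat.sq_diag_nonneg c.symm a))]
    exact h6
  have h7 := (abs_le.1 (h4.abs_sum_mul_le h5)).2
  have h8 := c.T4
  linarith

theorem Ctl.ct (c : Ctl F Z b t s v w) {a1 : ℝ} (ha : 0 ≤ a1)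
    (h : 2 * (b ^ 4 + v * (b ^ 2 * w)) + 2 * s ^ 2 ≤ a1 ^ 2) :
    Ct F Z b t s v w (b ^ 2) a1 where
  symm := c.symm
  supp := c.supp
  row := c.row
  b0 := c.b0
  T4 := c.T4
  Zt := by
    refine ⟨c.t0, ?_⟩
    have h1 := pow_le_pow_left₀ (fr_nonneg F Z) c.frZ 2
    exact (fr_sq F Z).symm.trans_le h1
  X0 := by
    refine ⟨sq_nonneg b, ?_⟩
    have h1 := pow_le_pow_left₀ (fr_nonneg F (Xk Z 0)) c.fr0 2
    exact (fr_sq F (Xk Z 0)).symm.trans_le h1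
  S := ⟨c.s0, c.S⟩
  V := by
    refine ⟨c.v0, ?_⟩
    refine le_trans (le_of_eq (Finset.sum_congr rfl fun a _ => ?_)) c.V
    show rh Z 0 a a ^ 2 = _
    rw [rh_eq, pow_zero, Matrix.one_apply_eq]
  W := ⟨c.w0, c.W⟩
  A1 := by
    refine ⟨ha, ?_⟩
    have h1 := sum_cube_diag_sq_le c
    have h2 : ∑ a ∈ F, rh Z 1 a a ^ 2 ≤ ∑ a ∈ F, (2 * (Z ^ 3) a a ^ 2 + 2 * Z a a ^ 2) := by
      refine Finset.sum_le_sum fun a _ => ?_
      rw [rh_eq, pow_one]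
      nlinarith [sq_nonneg ((Z ^ (1 + 2)) a a + Z a a)]
    rw [Finset.sum_add_distrib, ← Finset.mul_sum, ← Finset.mul_sum] at h2
    have h3 := c.S
    linarith

end Vale.Agent.P049.TS.T34
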