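import Vale.Agent.P049.TS.T34.Mean

/-!
Final drift lemmas for `T₃` and `T₄`.
-/

set_option linter.unusedSectionVars false

namespace Vale.Agent.P049.TS.T34

open Matrix Finset

variable {ι : Type*} [Fintype ι] [DecidableEq ι]

variable {Z : Matrix ι ι ℝ} {F : Finset ι} {A : Finset (ι × ι)} {b t s v w x a1 : ℝ}
  {h : ι → ι → ℝ} {e H : ℝ}

/-- error in the mean of `ΔT₃` -/
noncomputable def err3 (b t s v w x a1 e H : ℝ) : ℝ :=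
  e * (6 * (b ^ 2 * x) + (6 * (s * ((b ^ 2 + 1) * w)) + 6 * (v * a1))) +
  H * (6 * (s * ((b ^ 2 + 1) * w)) + 6 * (v * a1)) +
  3 / 2 * (6 * (t * (b ^ 2 * x)) +
    (12 * ((t + s ^ 2) * (2 * (s * ((b ^ 2 + 1) * w)) + b ^ 2 * x)) +
      18 * ((t + s ^ 2) * (2 * (v * a1)) + (2 * (s * v) + x) * (2 * (s * a1) + b * x)) +
      (30 * Qb s v w + 21 * v ^ 2) * (2 * (s * v) + x)))

/-- **mean of the increment of `T₃`** -/
theorem Ct.T3_mean (c : Ct F Z b t s v w x a1) (hA : A ⊆ F ×ˢ F)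
    (hadm : ∀ p ∈ A, p.1 ≠ p.2 ∧ PairOK Z p.1 p.2)
    (hh : ∀ p ∈ A, |h p.1 p.2| ≤ 1 / 2) (he : 0 ≤ e) (hH : 0 ≤ H)
    (hE : (((F ×ˢ F) \ A).card : ℝ) ≤ e ^ 2) (hHh : ∑ p ∈ F ×ˢ F, h p.1 p.2 ^ 2 ≤ H ^ 2) :
    |∑ p ∈ A, (1 - h p.1 p.2) * ((upd Z p.1 p.2 ^ 3).trace - (Z ^ 3).trace) -
      (6 * (Z.trace * ((Z ^ 4).trace - (Z ^ 2).trace)) +
        6 * (((Z ^ 2).trace - F.card) * ((Z ^ 3).trace - Z.trace))) +
      6 * ∑ p ∈ A, h p.1 p.2 * rh Z 2 p.1 p.2| ≤ err3 b t s v w x a1 e H := by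
  have hG : ∑ p ∈ A, (6 * (|Z p.1 p.2| * |rh Z 2 p.1 p.2|) + E3 Z p.1 p.2) ≤
      6 * (t * (b ^ 2 * x)) +
      (12 * ((t + s ^ 2) * (2 * (s * ((b ^ 2 + 1) * w)) + b ^ 2 * x)) +
      18 * ((t + s ^ 2) * (2 * (v * a1)) + (2 * (s * v) + x) * (2 * (s * a1) + b * x)) +
      (30 * Qb s v w + 21 * v ^ 2) * (2 * (s * v) + x)) := by
    rw [Finset.sum_add_distrib, ← Finset.mul_sum]
    exact add_le_add (mul_le_mul_of_nonneg_left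
      ((c.Zt.subset hA).sum_mul_le ((c.rho 2).subset hA)) (by norm_num)) (c.sum_E3 hA hadm)
  have h1 := mean_core (U := F ×ˢ F) (ρ := fun p => rh Z 2 p.1 p.2) (m := fun p => m3 Z p.1 p.2)
    (h := fun p => h p.1 p.2) (f := fun p => (upd Z p.1 p.2 ^ 3).trace - (Z ^ 3).trace)
    (G := fun p => 6 * (|Z p.1 p.2| * |rh Z 2 p.1 p.2|) + E3 Z p.1 p.2) hA
    (show (0 : ℝ) ≤ 6 by norm_num) (fun p hp => by
      have h2 := T3_pair (hadm p hp).1 c.symm (hadm p hp).2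
      have h3 : |6 * (Z p.1 p.2 * rh Z 2 p.1 p.2)| = 6 * (|Z p.1 p.2| * |rh Z 2 p.1 p.2|) := by
        rw [abs_mul, abs_mul, abs_of_pos (show (0 : ℝ) < 6 by norm_num)]
      have h4 := abs_add_le (6 * (Z p.1 p.2 * rh Z 2 p.1 p.2))
        ((upd Z p.1 p.2 ^ 3).trace - (Z ^ 3).trace -
          (6 * rh Z 2 p.1 p.2 + 6 * (Z p.1 p.2 * rh Z 2 p.1 p.2) + m3 Z p.1 p.2))
      rw [h3] at h4
      have e1 : (upd Z p.1 p.2 ^ 3).trace - (Z ^ 3).trace -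
          (6 * rh Z 2 p.1 p.2 + m3 Z p.1 p.2) = 6 * (Z p.1 p.2 * rh Z 2 p.1 p.2) +
          ((upd Z p.1 p.2 ^ 3).trace - (Z ^ 3).trace -
          (6 * rh Z 2 p.1 p.2 + 6 * (Z p.1 p.2 * rh Z 2 p.1 p.2) + m3 Z p.1 p.2)) := by ring
      rw [e1]
      linarith) hh (c.sum_rho 2) (c.rho 2) c.m3L ⟨hH, hHh⟩ (L2.one_of_card he hE) hG
  rw [c.sum_m3] at h1
  exact h1

/-- error in the mean of `ΔT₄` -/
noncomputable def err4 (b t s v w x a1 e H : ℝ) : ℝ :=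
  e * (8 * (b ^ 3 * x) +
    (8 * (s * (b * (b ^ 2 + 1) * w)) + 8 * (v * ((b ^ 2 + 1) * w)) + 4 * (a1 * a1))) +
  H * (8 * (s * (b * (b ^ 2 + 1) * w)) + 8 * (v * ((b ^ 2 + 1) * w)) + 4 * (a1 * a1)) +
  3 / 2 * (8 * (t * (b ^ 3 * x)) +
    (16 * ((t + s ^ 2) * (2 * (s * (b * (b ^ 2 + 1) * w)) + b ^ 3 * x)) +
      24 * ((t + s ^ 2) * (2 * (v * ((b ^ 2 + 1) * w))) +
        (2 * (s * v) + x) * (2 * (s * ((b ^ 2 + 1) * w)) + b ^ 2 * x)) +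
      12 * ((t + s ^ 2) * (2 * (a1 * a1)) + (2 * (s * a1) + b * x) * (2 * (s * a1) + b * x)) +
      (104 * Qb s v w + 28 * v ^ 2) * (2 * (s * a1) + b * x) +
      28 * ((2 * (s * v) + x) * (2 * (v * a1))) + 170 * (Qb s v w ^ 2 + (v ^ 2) ^ 2)))

/-- **mean of the increment of `T₄`** -/
theorem Ct.T4_mean (c : Ct F Z b t s v w x a1) (hA : A ⊆ F ×ˢ F)
    (hadm : ∀ p ∈ A, p.1 ≠ p.2 ∧ PairOK Z p.1 p.2)
    (hh : ∀ p ∈ A, |h p.1 p.2| ≤ 1 / 2) (he : 0 ≤ e) (hH : 0 ≤ H)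
    (hE : (((F ×ˢ F) \ A).card : ℝ) ≤ e ^ 2) (hHh : ∑ p ∈ F ×ˢ F, h p.1 p.2 ^ 2 ≤ H ^ 2) :
    |∑ p ∈ A, (1 - h p.1 p.2) * ((upd Z p.1 p.2 ^ 4).trace - (Z ^ 4).trace + 2) -
      (8 * (Z.trace * ((Z ^ 5).trace - (Z ^ 3).trace)) +
        8 * (((Z ^ 2).trace - F.card) * ((Z ^ 4).trace - (Z ^ 2).trace)) +
        4 * ((Z ^ 3).trace - Z.trace) ^ 2) +
      8 * ∑ p ∈ A, h p.1 p.2 * rh Z 3 p.1 p.2| ≤ err4 b t s v w x a1 e H := by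
  have hG : ∑ p ∈ A, (8 * (|Z p.1 p.2| * |rh Z 3 p.1 p.2|) + E4 Z p.1 p.2) ≤
      8 * (t * (b ^ 3 * x)) +
      (16 * ((t + s ^ 2) * (2 * (s * (b * (b ^ 2 + 1) * w)) + b ^ 3 * x)) +
      24 * ((t + s ^ 2) * (2 * (v * ((b ^ 2 + 1) * w))) +
        (2 * (s * v) + x) * (2 * (s * ((b ^ 2 + 1) * w)) + b ^ 2 * x)) +
      12 * ((t + s ^ 2) * (2 * (a1 * a1)) + (2 * (s * a1) + b * x) * (2 * (s * a1) + b * x)) +
      (104 * Qb s v w + 28 * v ^ 2) * (2 * (s * a1) + b * x) +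
      28 * ((2 * (s * v) + x) * (2 * (v * a1))) + 170 * (Qb s v w ^ 2 + (v ^ 2) ^ 2)) := by
    rw [Finset.sum_add_distrib, ← Finset.mul_sum]
    exact add_le_add (mul_le_mul_of_nonneg_left
      ((c.Zt.subset hA).sum_mul_le ((c.rho 3).subset hA)) (by norm_num)) (c.sum_E4 hA hadm)
  have h1 := mean_core (U := F ×ˢ F) (ρ := fun p => rh Z 3 p.1 p.2) (m := fun p => m4 Z p.1 p.2)
    (h := fun p => h p.1 p.2) (f := fun p => (upd Z p.1 p.2 ^ 4).trace - (Z ^ 4).trace + 2)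
    (G := fun p => 8 * (|Z p.1 p.2| * |rh Z 3 p.1 p.2|) + E4 Z p.1 p.2) hA
    (show (0 : ℝ) ≤ 8 by norm_num) (fun p hp => by
      have h2 := T4_pair (hadm p hp).1 c.symm (hadm p hp).2
      have h3 : |8 * (Z p.1 p.2 * rh Z 3 p.1 p.2)| = 8 * (|Z p.1 p.2| * |rh Z 3 p.1 p.2|) := by
        rw [abs_mul, abs_mul, abs_of_pos (show (0 : ℝ) < 8 by norm_num)]
      have h4 := abs_add_le (8 * (Z p.1 p.2 * rh Z 3 p.1 p.2))
        ((upd Z p.1 p.2 ^ 4).trace - (Z ^ 4).trace + 2 -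
          (8 * rh Z 3 p.1 p.2 + 8 * (Z p.1 p.2 * rh Z 3 p.1 p.2) + m4 Z p.1 p.2))
      rw [h3] at h4
      have e1 : (upd Z p.1 p.2 ^ 4).trace - (Z ^ 4).trace + 2 -
          (8 * rh Z 3 p.1 p.2 + m4 Z p.1 p.2) = 8 * (Z p.1 p.2 * rh Z 3 p.1 p.2) +
          ((upd Z p.1 p.2 ^ 4).trace - (Z ^ 4).trace + 2 -
          (8 * rh Z 3 p.1 p.2 + 8 * (Z p.1 p.2 * rh Z 3 p.1 p.2) + m4 Z p.1 p.2)) := by ring
      rw [e1]
      linarith) hh (c.sum_rho 3) (c.rho 3) c.m4L ⟨hH, hHh⟩ (L2.one_of_card he hE) hG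
  rw [c.sum_m4] at h1
  exact h1

/-! ### second moment of `ΔT₃` -/

theorem L2.le_of_mem {α : Type*} {A : Finset α} {f : α → ℝ} {K : ℝ} (h : L2 A f K) {p : α}
    (hp : p ∈ A) : |f p| ≤ K := by
  refine abs_le_of_sq_le_sq ?_ h.1
  exact (Finset.single_le_sum (f := fun p => f p ^ 2) (fun _ _ => sq_nonneg _) hp).trans h.2

theorem Ct.w_le (c : Ct F Z b t s v w x a1) {a : ι} (ha : a ∈ F) : (Z ^ 2) a a ≤ 1 + v := by
  have h1 := c.V.le_of_mem ha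
  have h2 : rh Z 0 a a = (Z ^ 2) a a - 1 := by
    rw [rh_eq, pow_zero, Matrix.one_apply_eq]
  have h3 := (abs_le.1 h1).2
  simp only [h2] at h3
  linarith

/-- `|ρ₀| ≤ √(w_a w_b) ≤ 1 + v` -/
theorem Ct.rho0_le (c : Ct F Z b t s v w x a1) {p : ι × ι} (hp : p ∈ F ×ˢ F)
    (hne : p.1 ≠ p.2) : |rh Z 0 p.1 p.2| ≤ √((Z ^ 2) p.1 p.1) * √((Z ^ 2) p.2 p.2) ∧
    √((Z ^ 2) p.1 p.1) * √((Z ^ 2) p.2 p.2) ≤ 1 + v := by
  have hp' := Finset.mem_product.1 hp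
  have h4 := c.opB.pow_apply_le c.symm c.b0 0 p.1 p.2
  rw [pow_zero, one_mul] at h4
  rw [rh0_ne hne]
  refine ⟨h4, ?_⟩
  have h1 := Real.sqrt_le_sqrt (c.w_le hp'.1)
  have h2 := Real.sqrt_le_sqrt (c.w_le hp'.2)
  have h5 : √(1 + v) * √(1 + v) = 1 + v := Real.mul_self_sqrt (by have := c.V.1; linarith)
  rw [← h5]
  exact mul_le_mul h1 h2 (Real.sqrt_nonneg _) (Real.sqrt_nonneg _)

theorem Ct.rho1_le (c : Ct F Z b t s v w x a1) (p : ι × ι) :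
    |rh Z 1 p.1 p.2| ≤ b * (√((Z ^ 2) p.1 p.1) * √((Z ^ 2) p.2 p.2)) + |Z p.1 p.2| := by
  have h4 := c.opB.pow_apply_le c.symm c.b0 1 p.1 p.2
  rw [pow_one] at h4
  rw [rh_eq]
  refine (abs_sub _ _).trans (add_le_add h4 ?_)
  rw [pow_one]

/-- norm of `ρ₀ ρ₁` -/
theorem Ct.rho01 (c : Ct F Z b t s v w x a1) (hA : A ⊆ F ×ˢ F) (hne : ∀ p ∈ A, p.1 ≠ p.2) :
    L2 A (fun p => |rh Z 0 p.1 p.2| * |rh Z 1 p.1 p.2|) (b * w ^ 2 + (1 + v) * t) := by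
  have hv : 0 ≤ 1 + v := by have := c.V.1; linarith
  have h1 := (((c.W.pair c.W).subset hA).smul c.b0).add (((c.Zt.subset hA).abs).smul hv)
  rw [← sq] at h1
  refine h1.of_le fun p hp => ?_
  have k1 := c.rho0_le (hA hp) (hne p hp)
  have k2 := c.rho1_le p
  have n1 := c.w_nonneg p.1
  have n2 := c.w_nonneg p.2
  rw [abs_of_nonneg (by positivity), abs_of_nonneg (add_nonneg (mul_nonneg c.b0 (mul_nonneg n1 n2))
    (mul_nonneg hv (abs_nonneg _)))]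
  set y := √((Z ^ 2) p.1 p.1) * √((Z ^ 2) p.2 p.2) with hy
  have hy0 : 0 ≤ y := by positivity
  have hyy : y * y = (Z ^ 2) p.1 p.1 * (Z ^ 2) p.2 p.2 := by
    rw [hy]
    have e1 := Real.mul_self_sqrt n1
    have e2 := Real.mul_self_sqrt n2
    calc _ = (√((Z ^ 2) p.1 p.1) * √((Z ^ 2) p.1 p.1)) *
        (√((Z ^ 2) p.2 p.2) * √((Z ^ 2) p.2 p.2)) := by ring
      _ = _ := by rw [e1, e2]
  calc |rh Z 0 p.1 p.2| * |rh Z 1 p.1 p.2| ≤ y * (b * y + |Z p.1 p.2|) :=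
        mul_le_mul k1.1 k2 (abs_nonneg _) hy0
    _ = b * (y * y) + y * |Z p.1 p.2| := by ring
    _ ≤ b * ((Z ^ 2) p.1 p.1 * (Z ^ 2) p.2 p.2) + (1 + v) * |Z p.1 p.2| := by
        rw [hyy]
        exact add_le_add le_rfl (mul_le_mul_of_nonneg_right k1.2 (abs_nonneg _))

/-- norm of `σ₀ σ₁` -/
def N01 (b t s v w a1 : ℝ) : ℝ :=
  4 * (s * v) * (s * a1) + 2 * (s * v) * (b * (1 + v) + 1) + 2 * (1 + v) * (s * a1) +
    (b * w ^ 2 + (1 + v) * t)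

theorem Ct.sg01 (c : Ct F Z b t s v w x a1) (hA : A ⊆ F ×ˢ F)
    (hadm : ∀ p ∈ A, p.1 ≠ p.2 ∧ PairOK Z p.1 p.2) :
    L2 A (fun p => sgm Z 0 p.1 p.2 * sgm Z 1 p.1 p.2) (N01 b t s v w a1) := by
  have hv : 0 ≤ 1 + v := by have := c.V.1; linarith
  have u0 := (c.qa c.V).subset hA
  have u1 := (c.qa c.A1).subset hA
  have h1 := u0.mul u1
  have h2 := u0.mul_bd (g := fun p => |rh Z 1 p.1 p.2|) (G := b * (1 + v) + 1)
    (add_nonneg (mul_nonneg c.b0 hv) (by norm_num)) (fun p hp => by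
      rw [abs_abs]
      refine (c.rho1_le p).trans (add_le_add (mul_le_mul_of_nonneg_left
        (c.rho0_le (hA hp) (hadm p hp).1).2 c.b0) ?_)
      have := (hadm p hp).2.1
      linarith)
  have h3 := u1.mul_bd (g := fun p => |rh Z 0 p.1 p.2|) (G := 1 + v) hv (fun p hp => by
      rw [abs_abs]
      exact (c.rho0_le (hA hp) (hadm p hp).1).1.trans (c.rho0_le (hA hp) (hadm p hp).1).2)
  have h4 := c.rho01 hA fun p hp => (hadm p hp).1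
  have h5 := ((h1.add h2).add h3).add h4
  have e : 2 * (s * v) * (2 * (s * a1)) + (b * (1 + v) + 1) * (2 * (s * v)) +
      (1 + v) * (2 * (s * a1)) + (b * w ^ 2 + (1 + v) * t) = N01 b t s v w a1 := by
    unfold N01; ring
  rw [e] at h5
  refine h5.of_le fun p _ => le_of_eq ?_
  congr 1
  unfold sgm sg
  ring

theorem Ct.sg0_le (c : Ct F Z b t s v w x a1) {p : ι × ι} (hp : p ∈ F ×ˢ F)
    (hne : p.1 ≠ p.2) : sgm Z 0 p.1 p.2 ≤ 2 * (s * v) + (1 + v) := by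
  have hp' := Finset.mem_product.1 hp
  have h1 := (c.rho0_le hp hne).1.trans (c.rho0_le hp hne).2
  have h2 := c.S.le_of_mem hp'.1
  have h3 := c.S.le_of_mem hp'.2
  have h4 := c.V.le_of_mem hp'.1
  have h5 := c.V.le_of_mem hp'.2
  have h6 := mul_le_mul h3 h4 (abs_nonneg _) c.S.1
  have h7 := mul_le_mul h2 h5 (abs_nonneg _) c.S.1
  unfold sgm sg
  linarith

/-- bound for `(Σ (ΔT₃)²)^{1/2}` -/
def sd3 (b t s v w x a1 : ℝ) : ℝ :=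
  7 * (b ^ 2 * x) + (6 * (s * ((b ^ 2 + 1) * w)) + 6 * (v * a1)) +
    3 * (2 * (s * ((b ^ 2 + 1) * w)) + b ^ 2 * x) + 9 * (v * a1) + 18 * N01 b t s v w a1 +
    (2 * (s * v) + (1 + v)) * (30 * Qb s v w) + (2 * (s * v) + (1 + v)) * (21 * v ^ 2)

theorem Ct.dT3L (c : Ct F Z b t s v w x a1) (hA : A ⊆ F ×ˢ F)
    (hadm : ∀ p ∈ A, p.1 ≠ p.2 ∧ PairOK Z p.1 p.2) :
    L2 A (fun p => (upd Z p.1 p.2 ^ 3).trace - (Z ^ 3).trace) (sd3 b t s v w x a1) := by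
  have hv := c.V.1
  have hs := c.S.1
  have hμ : 0 ≤ 2 * (s * v) + (1 + v) := by positivity
  have hne : ∀ p ∈ A, p.1 ≠ p.2 := fun p hp => (hadm p hp).1
  have k1 := ((c.rho 2).subset hA).abs.smul (show (0 : ℝ) ≤ 7 by norm_num)
  have k2 := (c.m3L.subset hA).abs
  have k3 := ((c.sgL c.al2).subset hA).smul (show (0 : ℝ) ≤ 3 by norm_num)
  have k4 := ((ppL c.V c.A1).subset hA).smul (show (0 : ℝ) ≤ 9 / 2 by norm_num)
  have k5 := (c.sg01 hA hadm).smul (show (0 : ℝ) ≤ 18 by norm_num)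
  have k6 := ((c.sg0sq hA hne).smul (show (0 : ℝ) ≤ 30 by norm_num)).mul_bd
    (g := fun p => sgm Z 0 p.1 p.2) hμ (fun p hp => by
      rw [abs_of_nonneg (sgm_nonneg _ _ _ _)]; exact c.sg0_le (hA hp) (hne p hp))
  have k7 := ((c.gL.subset hA).smul (show (0 : ℝ) ≤ 21 by norm_num)).mul_bd
    (g := fun p => sgm Z 0 p.1 p.2) hμ (fun p hp => by
      rw [abs_of_nonneg (sgm_nonneg _ _ _ _)]; exact c.sg0_le (hA hp) (hne p hp))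
  have k8 := (((((k1.add k2).add k3).add k4).add k5).add k6).add k7
  have e : 7 * (b ^ 2 * x) + (6 * (s * ((b ^ 2 + 1) * w)) + 6 * (v * a1)) +
      3 * (2 * (s * ((b ^ 2 + 1) * w)) + b ^ 2 * x) + 9 / 2 * (2 * (v * a1)) +
      18 * N01 b t s v w a1 + (2 * (s * v) + (1 + v)) * (30 * Qb s v w) +
      (2 * (s * v) + (1 + v)) * (21 * v ^ 2) = sd3 b t s v w x a1 := by
    unfold sd3; ring
  rw [e] at k8
  refine k8.of_le fun p hp => ?_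
  have h1 := T3_pair (hne p hp) c.symm (hadm p hp).2
  have h2 := eL_le (hadm p hp).2 2
  have h3 := dl_le (hadm p hp).2
  have h4 := (hadm p hp).2.1
  have n0 := dl_nonneg Z p.1 p.2
  have n1 := sgm_nonneg Z 2 p.1 p.2
  have n2 := sgm_nonneg Z 0 p.1 p.2
  have n3 := sgm_nonneg Z 1 p.1 p.2
  have n4 : 0 ≤ pp Z 0 1 p.1 p.2 := by unfold pp; positivity
  have n5 : 0 ≤ |rh Z 0 p.1 p.1| * |rh Z 0 p.2 p.2| := by positivity
  have h5 : dl Z p.1 p.2 * sgm Z 2 p.1 p.2 ≤ 1 / 4 * sgm Z 2 p.1 p.2 :=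
    mul_le_mul_of_nonneg_right h3 n1
  have h6 : dl Z p.1 p.2 * pp Z 0 1 p.1 p.2 ≤ 1 / 4 * pp Z 0 1 p.1 p.2 :=
    mul_le_mul_of_nonneg_right h3 n4
  have h7 : |6 * rh Z 2 p.1 p.2 + 6 * (Z p.1 p.2 * rh Z 2 p.1 p.2)| ≤ 7 * |rh Z 2 p.1 p.2| := by
    refine (abs_add_le _ _).trans ?_
    rw [abs_mul, abs_mul, abs_mul, abs_of_pos (show (0 : ℝ) < 6 by norm_num)]
    have h9 := mul_le_mul_of_nonneg_right h4 (abs_nonneg (rh Z 2 p.1 p.2))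
    have h10 := abs_nonneg (rh Z 2 p.1 p.2)
    linarith
  have h8 : |(upd Z p.1 p.2 ^ 3).trace - (Z ^ 3).trace| ≤
      7 * |rh Z 2 p.1 p.2| + |m3 Z p.1 p.2| + E3 Z p.1 p.2 := by
    have e1 : (upd Z p.1 p.2 ^ 3).trace - (Z ^ 3).trace =
      (6 * rh Z 2 p.1 p.2 + 6 * (Z p.1 p.2 * rh Z 2 p.1 p.2)) + m3 Z p.1 p.2 +
        ((upd Z p.1 p.2 ^ 3).trace - (Z ^ 3).trace -
        (6 * rh Z 2 p.1 p.2 + 6 * (Z p.1 p.2 * rh Z 2 p.1 p.2) + m3 Z p.1 p.2)) := by ring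
    rw [e1]
    refine (abs_add_le _ _).trans (add_le_add ((abs_add_le _ _).trans (add_le_add h7 le_rfl)) h1)
  refine h8.trans (le_trans ?_ (le_abs_self _))
  unfold E3 eQ
  have e3 : sgm Z 0 p.1 p.2 ^ 3 = sgm Z 0 p.1 p.2 * sgm Z 0 p.1 p.2 ^ 2 := by ring
  rw [e3]
  linarith

/-- **second moment of the increment of `T₃`** -/
theorem Ct.T3_sq (c : Ct F Z b t s v w x a1) (hA : A ⊆ F ×ˢ F)
    (hadm : ∀ p ∈ A, p.1 ≠ p.2 ∧ PairOK Z p.1 p.2) :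
    ∑ p ∈ A, ((upd Z p.1 p.2 ^ 3).trace - (Z ^ 3).trace) ^ 2 ≤ sd3 b t s v w x a1 ^ 2 :=
  (c.dT3L hA hadm).2

end Vale.Agent.P049.TS.T34
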