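import Vale.Agent.P049.TS.T34.Base

/-!
Mean increments of `T₃` and `T₄` over a set `A` of admissible ordered pairs with weights `1 - h`,
and the second moment of the increment of `T₃`.
-/

set_option linter.unusedSectionVars false

namespace Vale.Agent.P049.TS.T34

open Matrix Finset

/-- abstract form of the mean computation -/
theorem mean_core {α : Type*} [DecidableEq α] {A U : Finset α} (hAU : A ⊆ U)
    {ρ m h f G : α → ℝ} {c0 Kρ Km H e KG : ℝ} (hc : 0 ≤ c0)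
    (hf : ∀ p ∈ A, |f p - (c0 * ρ p + m p)| ≤ G p) (hh : ∀ p ∈ A, |h p| ≤ 1 / 2)
    (hρ0 : ∑ p ∈ U, ρ p = 0) (hρ : L2 U ρ Kρ) (hm : L2 U m Km) (hh2 : L2 U h H)
    (hE : L2 (U \ A) (fun _ => (1 : ℝ)) e) (hG : ∑ p ∈ A, G p ≤ KG) :
    |∑ p ∈ A, (1 - h p) * f p - ∑ p ∈ U, m p + c0 * ∑ p ∈ A, h p * ρ p| ≤
      e * (c0 * Kρ + Km) + H * Km + 3 / 2 * KG := by
  have e1 : ∑ p ∈ A, (1 - h p) * f p = ∑ p ∈ A, (1 - h p) * (f p - (c0 * ρ p + m p)) +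
      ∑ p ∈ A, (c0 * ρ p + m p) - c0 * ∑ p ∈ A, h p * ρ p - ∑ p ∈ A, h p * m p := by
    rw [Finset.mul_sum, ← Finset.sum_add_distrib, ← Finset.sum_sub_distrib,
      ← Finset.sum_sub_distrib]
    exact Finset.sum_congr rfl fun p _ => by ring
  have e2 : ∑ p ∈ A, (c0 * ρ p + m p) =
      ∑ p ∈ U, m p - ∑ p ∈ U \ A, (c0 * ρ p + m p) := by
    have h1 := Finset.sum_sdiff hAU (f := fun p => c0 * ρ p + m p)
    have h2 : ∑ p ∈ U, (c0 * ρ p + m p) = ∑ p ∈ U, m p := by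
      rw [Finset.sum_add_distrib, ← Finset.mul_sum, hρ0, mul_zero, zero_add]
    linarith
  have b1 : |∑ p ∈ A, (1 - h p) * (f p - (c0 * ρ p + m p))| ≤ 3 / 2 * KG := by
    refine (Finset.abs_sum_le_sum_abs _ _).trans ?_
    have h1 : ∑ p ∈ A, |(1 - h p) * (f p - (c0 * ρ p + m p))| ≤ ∑ p ∈ A, 3 / 2 * G p := by
      refine Finset.sum_le_sum fun p hp => ?_
      rw [abs_mul]
      have h2 := abs_le.1 (hh p hp)
      have h3 : |1 - h p| ≤ 3 / 2 := by rw [abs_le]; constructor <;> linarith [h2.1, h2.2]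
      exact mul_le_mul h3 (hf p hp) (abs_nonneg _) (by norm_num)
    rw [← Finset.mul_sum] at h1
    linarith
  have b2 : |∑ p ∈ U \ A, (c0 * ρ p + m p)| ≤ e * (c0 * Kρ + Km) :=
    (Finset.abs_sum_le_sum_abs _ _).trans
      ((((hρ.smul hc).add hm).subset Finset.sdiff_subset).sum_abs_le hE)
  have b3 : |∑ p ∈ A, h p * m p| ≤ H * Km := (hh2.subset hAU).abs_sum_mul_le (hm.subset hAU)
  rw [e1, e2]
  have c1 := abs_le.1 b1
  have c2 := abs_le.1 b2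
  have c3 := abs_le.1 b3
  rw [abs_le]
  constructor
  · linarith [c1.1, c2.2, c3.2]
  · linarith [c1.2, c2.1, c3.1]

variable {ι : Type*} [Fintype ι] [DecidableEq ι]

variable {Z : Matrix ι ι ℝ} {F : Finset ι} {A : Finset (ι × ι)} {b t s v w x a1 : ℝ}

theorem Ct.dlL (c : Ct F Z b t s v w x a1) :
    L2 (F ×ˢ F) (fun p => dl Z p.1 p.2) (t + s ^ 2) := by
  have h1 := c.Zt.abs.add (c.S.pair c.S).abs
  rw [← sq] at h1
  exact h1

/-- `|q| |α| + |p| |β|` -/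
theorem Ct.qa (c : Ct F Z b t s v w x a1) {y : ι → ℝ} {K : ℝ} (hy : L2 F y K) :
    L2 (F ×ˢ F) (fun p => |Z p.2 p.2| * |y p.1| + |Z p.1 p.1| * |y p.2|) (2 * (s * K)) := by
  have h1 := (c.S.abs.pair' hy.abs).add (c.S.abs.pair hy.abs)
  rw [← two_mul] at h1
  exact h1

theorem Ct.sgL (c : Ct F Z b t s v w x a1) {j : ℕ} {K : ℝ} (hy : L2 F (fun a => rh Z j a a) K) :
    L2 (F ×ˢ F) (fun p => sgm Z j p.1 p.2) (2 * (s * K) + b ^ j * x) :=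
  (c.qa hy).add (c.rho j).abs

theorem ppL {i j : ℕ} {K L : ℝ} (hi : L2 F (fun a => rh Z i a a) K)
    (hj : L2 F (fun a => rh Z j a a) L) :
    L2 (F ×ˢ F) (fun p => pp Z i j p.1 p.2) (2 * (K * L)) := by
  have h1 := (hi.abs.pair hj.abs).add (hi.abs.pair' hj.abs)
  rw [← two_mul] at h1
  exact h1

theorem Ct.gL (c : Ct F Z b t s v w x a1) :
    L2 (F ×ˢ F) (fun p => |rh Z 0 p.1 p.1| * |rh Z 0 p.2 p.2|) (v ^ 2) := by
  have h1 := c.V.abs.pair c.V.abs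
  rw [← sq] at h1
  exact h1

/-- the bound for `σ₀²` -/
def Qb (s v w : ℝ) : ℝ := 3 * ((s * v) ^ 2 + (s * v) ^ 2 + w ^ 2)

theorem Ct.sg0sq (c : Ct F Z b t s v w x a1) (hA : A ⊆ F ×ˢ F) (hne : ∀ p ∈ A, p.1 ≠ p.2) :
    L2 A (fun p => sgm Z 0 p.1 p.2 ^ 2) (Qb s v w) := by
  have h1 : L2 A (fun p => |Z p.2 p.2| * |rh Z 0 p.1 p.1|) (s * v) :=
    (c.S.abs.pair' c.V.abs).subset hA
  have h2 : L2 A (fun p => |Z p.1 p.1| * |rh Z 0 p.2 p.2|) (s * v) :=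
    (c.S.abs.pair c.V.abs).subset hA
  have h3 := ((((h1.mul h1).add (h2.mul h2)).add (c.rho0sq hA hne)).smul
    (show (0 : ℝ) ≤ 3 by norm_num))
  have e : 3 * (s * v * (s * v) + s * v * (s * v) + w ^ 2) = Qb s v w := by unfold Qb; ring
  rw [e] at h3
  refine h3.of_le fun p _ => ?_
  have h4 : 0 ≤ |Z p.2 p.2| * |rh Z 0 p.1 p.1| := by positivity
  have h5 : 0 ≤ |Z p.1 p.1| * |rh Z 0 p.2 p.2| := by positivity
  have h6 : 0 ≤ |rh Z 0 p.1 p.2| := by positivity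
  rw [abs_of_nonneg (sq_nonneg _), abs_of_nonneg (by positivity)]
  unfold sgm sg
  rw [← sq_abs (rh Z 0 p.1 p.2)]
  nlinarith [sq_nonneg (|Z p.2 p.2| * |rh Z 0 p.1 p.1| - |Z p.1 p.1| * |rh Z 0 p.2 p.2|),
    sq_nonneg (|Z p.2 p.2| * |rh Z 0 p.1 p.1| - |rh Z 0 p.1 p.2|),
    sq_nonneg (|Z p.1 p.1| * |rh Z 0 p.2 p.2| - |rh Z 0 p.1 p.2|)]

/-! ### pointwise simplifications under `PairOK` -/

theorem dl_nonneg (Z : Matrix ι ι ℝ) (a b : ι) : 0 ≤ dl Z a b := by unfold dl; positivity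

theorem sgm_nonneg (Z : Matrix ι ι ℝ) (j : ℕ) (a b : ι) : 0 ≤ sgm Z j a b := sg_nonneg _ _ _ _ _

theorem dl_le {a b : ι} (h : PairOK Z a b) : dl Z a b ≤ 1 / 4 := (Cf_of h).hδ

theorem eL_le {a b : ι} (h : PairOK Z a b) (j : ℕ) :
    eL Z j a b ≤ 4 * (dl Z a b * sgm Z j a b) := by
  have h1 : Z a b ^ 2 ≤ |Z a b| := by
    rw [← sq_abs, sq]
    have := h.1
    nlinarith [abs_nonneg (Z a b)]
  have h2 : Z a b ^ 2 + |Z a a * Z b b| ≤ dl Z a b := by unfold dl; linarith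
  have h3 := mul_le_mul_of_nonneg_right h2 (abs_nonneg (rh Z j a b))
  unfold eL sgm sg
  linarith

/-- sum of `δ σ_j` -/
theorem Ct.sum_eL (c : Ct F Z b t s v w x a1) (hA : A ⊆ F ×ˢ F)
    (hadm : ∀ p ∈ A, PairOK Z p.1 p.2) {j : ℕ} {K : ℝ} (hy : L2 F (fun a => rh Z j a a) K) :
    ∑ p ∈ A, eL Z j p.1 p.2 ≤ 4 * ((t + s ^ 2) * (2 * (s * K) + b ^ j * x)) := by
  have h1 := (c.dlL.subset hA).sum_mul_le ((c.sgL hy).subset hA)
  refine (Finset.sum_le_sum fun p hp => ?_).trans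
    (le_trans (le_of_eq (Finset.mul_sum _ _ (4 : ℝ)).symm)
      (mul_le_mul_of_nonneg_left h1 (by norm_num)))
  rw [abs_of_nonneg (dl_nonneg _ _ _), abs_of_nonneg (sgm_nonneg _ _ _ _)]
  exact eL_le (hadm p hp) j

theorem Ct.sum_eQ (c : Ct F Z b t s v w x a1) (hA : A ⊆ F ×ˢ F) {i j : ℕ} {K L : ℝ}
    (hi : L2 F (fun a => rh Z i a a) K) (hj : L2 F (fun a => rh Z j a a) L) :
    ∑ p ∈ A, eQ Z i j p.1 p.2 ≤ 6 * ((t + s ^ 2) * (2 * (K * L)) +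
      (2 * (s * K) + b ^ i * x) * (2 * (s * L) + b ^ j * x)) := by
  have h1 := (c.dlL.subset hA).sum_mul_le ((ppL hi hj).subset hA)
  have h2 := ((c.sgL hi).subset hA).sum_mul_le ((c.sgL hj).subset hA)
  have h3 : ∑ p ∈ A, eQ Z i j p.1 p.2 =
      6 * (∑ p ∈ A, |dl Z p.1 p.2| * |pp Z i j p.1 p.2| +
        ∑ p ∈ A, |sgm Z i p.1 p.2| * |sgm Z j p.1 p.2|) := by
    rw [← Finset.sum_add_distrib, Finset.mul_sum]
    refine Finset.sum_congr rfl fun p _ => ?_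
    have n1 : 0 ≤ pp Z i j p.1 p.2 := by unfold pp; positivity
    rw [abs_of_nonneg (dl_nonneg _ _ _), abs_of_nonneg n1, abs_of_nonneg (sgm_nonneg _ _ _ _),
      abs_of_nonneg (sgm_nonneg _ _ _ _)]
    rfl
  rw [h3]
  exact mul_le_mul_of_nonneg_left (add_le_add h1 h2) (by norm_num)

/-- sum of `E3` -/
theorem Ct.sum_E3 (c : Ct F Z b t s v w x a1) (hA : A ⊆ F ×ˢ F)
    (hadm : ∀ p ∈ A, p.1 ≠ p.2 ∧ PairOK Z p.1 p.2) :
    ∑ p ∈ A, E3 Z p.1 p.2 ≤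
      12 * ((t + s ^ 2) * (2 * (s * ((b ^ 2 + 1) * w)) + b ^ 2 * x)) +
      18 * ((t + s ^ 2) * (2 * (v * a1)) + (2 * (s * v) + x) * (2 * (s * a1) + b * x)) +
      (30 * Qb s v w + 21 * v ^ 2) * (2 * (s * v) + x) := by
  have k1 := c.sum_eL hA (fun p hp => (hadm p hp).2) c.al2
  have k2 := c.sum_eQ hA c.V c.A1
  have k3 := (c.sg0sq hA fun p hp => (hadm p hp).1).sum_mul_le ((c.sgL c.V).subset hA)
  have k4 := (c.gL.subset hA).sum_mul_le ((c.sgL c.V).subset hA)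
  have e1 : ∑ p ∈ A, E3 Z p.1 p.2 = 3 * ∑ p ∈ A, eL Z 2 p.1 p.2 + 3 * ∑ p ∈ A, eQ Z 0 1 p.1 p.2 +
      (30 * ∑ p ∈ A, |sgm Z 0 p.1 p.2 ^ 2| * |sgm Z 0 p.1 p.2| +
      21 * ∑ p ∈ A, |(|rh Z 0 p.1 p.1| * |rh Z 0 p.2 p.2|)| * |sgm Z 0 p.1 p.2|) := by
    rw [Finset.mul_sum, Finset.mul_sum, Finset.mul_sum, Finset.mul_sum,
      ← Finset.sum_add_distrib, ← Finset.sum_add_distrib, ← Finset.sum_add_distrib]
    refine Finset.sum_congr rfl fun p _ => ?_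
    rw [abs_of_nonneg (sq_nonneg _), abs_of_nonneg (sgm_nonneg _ _ _ _),
      abs_of_nonneg (show 0 ≤ |rh Z 0 p.1 p.1| * |rh Z 0 p.2 p.2| by positivity)]
    unfold E3; ring
  rw [e1]
  simp only [pow_zero, one_mul, pow_one] at k2 k3 k4
  linarith

/-- sum of `E4` -/
theorem Ct.sum_E4 (c : Ct F Z b t s v w x a1) (hA : A ⊆ F ×ˢ F)
    (hadm : ∀ p ∈ A, p.1 ≠ p.2 ∧ PairOK Z p.1 p.2) :
    ∑ p ∈ A, E4 Z p.1 p.2 ≤
      16 * ((t + s ^ 2) * (2 * (s * (b * (b ^ 2 + 1) * w)) + b ^ 3 * x)) +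
      24 * ((t + s ^ 2) * (2 * (v * ((b ^ 2 + 1) * w))) +
        (2 * (s * v) + x) * (2 * (s * ((b ^ 2 + 1) * w)) + b ^ 2 * x)) +
      12 * ((t + s ^ 2) * (2 * (a1 * a1)) + (2 * (s * a1) + b * x) * (2 * (s * a1) + b * x)) +
      (104 * Qb s v w + 28 * v ^ 2) * (2 * (s * a1) + b * x) +
      28 * ((2 * (s * v) + x) * (2 * (v * a1))) + 170 * (Qb s v w ^ 2 + (v ^ 2) ^ 2) := by
  have hne : ∀ p ∈ A, p.1 ≠ p.2 := fun p hp => (hadm p hp).1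
  have k1 := c.sum_eL hA (fun p hp => (hadm p hp).2) c.al3
  have k2 := c.sum_eQ hA c.V c.al2
  have k2' := c.sum_eQ hA c.A1 c.A1
  have k3 := (c.sg0sq hA hne).sum_mul_le ((c.sgL c.A1).subset hA)
  have k4 := (c.gL.subset hA).sum_mul_le ((c.sgL c.A1).subset hA)
  have k5 := ((c.sgL c.V).subset hA).sum_mul_le ((ppL c.V c.A1).subset hA)
  have k6 := (c.sg0sq hA hne).2
  have k7 := (c.gL.subset hA).2
  have e1 : ∑ p ∈ A, E4 Z p.1 p.2 = 4 * ∑ p ∈ A, eL Z 3 p.1 p.2 + 4 * ∑ p ∈ A, eQ Z 0 2 p.1 p.2 +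
      2 * ∑ p ∈ A, eQ Z 1 1 p.1 p.2 +
      104 * ∑ p ∈ A, |sgm Z 0 p.1 p.2 ^ 2| * |sgm Z 1 p.1 p.2| +
      28 * ∑ p ∈ A, |(|rh Z 0 p.1 p.1| * |rh Z 0 p.2 p.2|)| * |sgm Z 1 p.1 p.2| +
      28 * ∑ p ∈ A, |sgm Z 0 p.1 p.2| * |pp Z 0 1 p.1 p.2| +
      170 * ∑ p ∈ A, (sgm Z 0 p.1 p.2 ^ 2) ^ 2 +
      170 * ∑ p ∈ A, (|rh Z 0 p.1 p.1| * |rh Z 0 p.2 p.2|) ^ 2 := by
    simp only [Finset.mul_sum]
    simp only [← Finset.sum_add_distrib]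
    refine Finset.sum_congr rfl fun p _ => ?_
    have n1 : 0 ≤ pp Z 0 1 p.1 p.2 := by unfold pp; positivity
    rw [abs_of_nonneg (sq_nonneg _), abs_of_nonneg (sgm_nonneg _ _ _ _), abs_of_nonneg n1,
      abs_of_nonneg (show 0 ≤ |rh Z 0 p.1 p.1| * |rh Z 0 p.2 p.2| by positivity),
      abs_of_nonneg (sgm_nonneg _ _ _ _)]
    unfold E4; ring
  rw [e1]
  simp only [pow_zero, one_mul, pow_one] at k2 k2' k3 k4 k5
  linarith

/-! ### main terms -/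

theorem Ct.m3L (c : Ct F Z b t s v w x a1) :
    L2 (F ×ˢ F) (fun p => m3 Z p.1 p.2) (6 * (s * ((b ^ 2 + 1) * w)) + 6 * (v * a1)) := by
  have h1 := ((c.qa c.al2).smul (show (0 : ℝ) ≤ 3 by norm_num)).add
    ((ppL c.V c.A1).smul (show (0 : ℝ) ≤ 3 by norm_num))
  have e : 3 * (2 * (s * ((b ^ 2 + 1) * w))) + 3 * (2 * (v * a1)) =
      6 * (s * ((b ^ 2 + 1) * w)) + 6 * (v * a1) := by ring
  rw [e] at h1
  refine h1.of_le fun p _ => ?_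
  unfold m3 pp
  rw [abs_of_nonneg (show 0 ≤ 3 * (|Z p.2 p.2| * |rh Z 2 p.1 p.1| + |Z p.1 p.1| * |rh Z 2 p.2 p.2|) +
    3 * (|rh Z 0 p.1 p.1| * |rh Z 1 p.2 p.2| + |rh Z 0 p.2 p.2| * |rh Z 1 p.1 p.1|) by positivity)]
  simp only [← abs_mul]
  refine (abs_add_le _ _).trans (add_le_add ?_ ?_)
  · rw [abs_mul, abs_of_pos (show (0 : ℝ) < 3 by norm_num)]
    exact mul_le_mul_of_nonneg_left (abs_add_le _ _) (by norm_num)
  · rw [abs_mul, abs_of_pos (show (0 : ℝ) < 3 by norm_num)]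
    exact mul_le_mul_of_nonneg_left (abs_add_le _ _) (by norm_num)

theorem Ct.m4L (c : Ct F Z b t s v w x a1) :
    L2 (F ×ˢ F) (fun p => m4 Z p.1 p.2)
      (8 * (s * (b * (b ^ 2 + 1) * w)) + 8 * (v * ((b ^ 2 + 1) * w)) + 4 * (a1 * a1)) := by
  have h1 := (((c.qa c.al3).smul (show (0 : ℝ) ≤ 4 by norm_num)).add
    ((ppL c.V c.al2).smul (show (0 : ℝ) ≤ 4 by norm_num))).add
    ((ppL c.A1 c.A1).smul (show (0 : ℝ) ≤ 2 by norm_num))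
  have e : 4 * (2 * (s * (b * (b ^ 2 + 1) * w))) + 4 * (2 * (v * ((b ^ 2 + 1) * w))) +
      2 * (2 * (a1 * a1)) =
      8 * (s * (b * (b ^ 2 + 1) * w)) + 8 * (v * ((b ^ 2 + 1) * w)) + 4 * (a1 * a1) := by ring
  rw [e] at h1
  refine h1.of_le fun p _ => ?_
  unfold m4 pp
  rw [abs_of_nonneg (show 0 ≤ 4 * (|Z p.2 p.2| * |rh Z 3 p.1 p.1| + |Z p.1 p.1| * |rh Z 3 p.2 p.2|) +
    4 * (|rh Z 0 p.1 p.1| * |rh Z 2 p.2 p.2| + |rh Z 0 p.2 p.2| * |rh Z 2 p.1 p.1|) +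
    2 * (|rh Z 1 p.1 p.1| * |rh Z 1 p.2 p.2| + |rh Z 1 p.2 p.2| * |rh Z 1 p.1 p.1|) by positivity)]
  simp only [← abs_mul]
  refine (abs_add_le _ _).trans (add_le_add ((abs_add_le _ _).trans (add_le_add ?_ ?_)) ?_)
  · rw [abs_mul, abs_of_pos (show (0 : ℝ) < 4 by norm_num)]
    exact mul_le_mul_of_nonneg_left (abs_add_le _ _) (by norm_num)
  · rw [abs_mul, abs_of_pos (show (0 : ℝ) < 4 by norm_num)]
    exact mul_le_mul_of_nonneg_left (abs_add_le _ _) (by norm_num)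
  · rw [abs_mul, abs_of_pos (show (0 : ℝ) < 2 by norm_num)]
    exact mul_le_mul_of_nonneg_left (abs_add_le _ _) (by norm_num)

theorem Ct.sum_m3 (c : Ct F Z b t s v w x a1) :
    ∑ p ∈ F ×ˢ F, m3 Z p.1 p.2 = 6 * (Z.trace * ((Z ^ 4).trace - (Z ^ 2).trace)) +
      6 * (((Z ^ 2).trace - F.card) * ((Z ^ 3).trace - Z.trace)) := by
  unfold m3
  have h1 := sum_pair' (fun a => Z a a) (fun a => rh Z 2 a a) F
  have h2 := sum_pair (fun a => Z a a) (fun a => rh Z 2 a a) F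
  have h3 := sum_pair (fun a => rh Z 0 a a) (fun a => rh Z 1 a a) F
  have h4 := sum_pair' (fun a => rh Z 0 a a) (fun a => rh Z 1 a a) F
  rw [c.sum_diagZ, c.sum_diag2] at h1 h2
  rw [c.sum_diag0, c.sum_diag1] at h3 h4
  rw [Finset.sum_add_distrib, ← Finset.mul_sum, ← Finset.mul_sum, Finset.sum_add_distrib,
    Finset.sum_add_distrib, h1, h2, h3, h4]
  ring

theorem Ct.sum_m4 (c : Ct F Z b t s v w x a1) :
    ∑ p ∈ F ×ˢ F, m4 Z p.1 p.2 = 8 * (Z.trace * ((Z ^ 5).trace - (Z ^ 3).trace)) +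
      8 * (((Z ^ 2).trace - F.card) * ((Z ^ 4).trace - (Z ^ 2).trace)) +
      4 * ((Z ^ 3).trace - Z.trace) ^ 2 := by
  unfold m4
  have h1 := sum_pair' (fun a => Z a a) (fun a => rh Z 3 a a) F
  have h2 := sum_pair (fun a => Z a a) (fun a => rh Z 3 a a) F
  have h3 := sum_pair (fun a => rh Z 0 a a) (fun a => rh Z 2 a a) F
  have h4 := sum_pair' (fun a => rh Z 0 a a) (fun a => rh Z 2 a a) F
  have h5 := sum_pair (fun a => rh Z 1 a a) (fun a => rh Z 1 a a) F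
  have h6 := sum_pair' (fun a => rh Z 1 a a) (fun a => rh Z 1 a a) F
  rw [c.sum_diagZ, c.sum_diag3] at h1 h2
  rw [c.sum_diag0, c.sum_diag2] at h3 h4
  rw [c.sum_diag1] at h5 h6
  rw [Finset.sum_add_distrib, Finset.sum_add_distrib, ← Finset.mul_sum, ← Finset.mul_sum,
    ← Finset.mul_sum, Finset.sum_add_distrib, Finset.sum_add_distrib, Finset.sum_add_distrib,
    h1, h2, h3, h4, h5, h6]
  ring

end Vale.Agent.P049.TS.T34
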