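import Vale.Agent.P049.TS.T34.Scalar2
import Vale.Agent.P049.TS.Avg.Adm

/-!
Pointwise bounds for the increments of `T₃` and `T₄` in one join.
-/

set_option linter.unusedSectionVars false

namespace Vale.Agent.P049.TS.T34

open Matrix Finset

variable {ι : Type*} [Fintype ι] [DecidableEq ι]

/-- `(Z^j (Z² - 1))_ab` -/
def rh (Z : Matrix ι ι ℝ) (j : ℕ) (a b : ι) : ℝ := (Z ^ j * (Z ^ 2 - 1) : Matrix ι ι ℝ) a b

variable {Z : Matrix ι ι ℝ} {a b : ι}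

theorem symm_rh (hZ : Z.IsSymm) (j : ℕ) : (Z ^ j * (Z ^ 2 - 1)).IsSymm := by
  have h1 : (Z ^ j).IsSymm := symm_pow hZ j
  have h2 : (Z ^ 2 - 1 : Matrix ι ι ℝ).IsSymm := by
    unfold Matrix.IsSymm
    rw [Matrix.transpose_sub, (symm_pow hZ 2).eq, Matrix.transpose_one]
  unfold Matrix.IsSymm
  rw [Matrix.transpose_mul, h1.eq, h2.eq]
  rw [sub_mul, mul_sub, mul_one, one_mul, ← pow_add, ← pow_add, add_comm]

theorem rh_comm (hZ : Z.IsSymm) (j : ℕ) (a b : ι) : rh Z j b a = rh Z j a b :=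
  (symm_rh hZ j).apply a b

theorem blk_rh (hZ : Z.IsSymm) (j : ℕ) (a b : ι) :
    blk (Z ^ j * (Z ^ 2 - 1)) a b = !![rh Z j a a, rh Z j a b; rh Z j a b, rh Z j b b] := by
  have := rh_comm hZ j a b
  unfold rh at this
  unfold blk rh
  rw [this]

/-- coefficients -/
noncomputable def c1 (Z : Matrix ι ι ℝ) (a b : ι) : ℝ := (al Z a b)⁻¹ * Z b b
noncomputable def c0 (Z : Matrix ι ι ℝ) (a b : ι) : ℝ := (al Z a b)⁻¹ * (1 - Z a b)
noncomputable def c2 (Z : Matrix ι ι ℝ) (a b : ι) : ℝ := (al Z a b)⁻¹ * Z a a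

/-- `δ` -/
def dl (Z : Matrix ι ι ℝ) (a b : ι) : ℝ := |Z a b| + |Z a a * Z b b|

theorem Cf_of (h : PairOK Z a b) :
    Cf (Z a a) (Z b b) (Z a b) (c1 Z a b) (c0 Z a b) (c2 Z a b) (dl Z a b) where
  hr := by unfold dl; linarith [abs_nonneg (Z a a * Z b b)]
  hpq' := by unfold dl; linarith [abs_nonneg (Z a b)]
  hδ := by unfold dl; linarith [h.1, h.2]
  hpq := h.2
  hm := h.abs_off_sub_one
  hm1 := by
    have := mul_le_mul_of_nonneg_right h.abs_inv_sub_one (abs_nonneg (Z b b))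
    rwa [← abs_mul, sub_mul, one_mul] at this
  hm2 := by
    have := mul_le_mul_of_nonneg_right h.abs_inv_sub_one (abs_nonneg (Z a a))
    rwa [← abs_mul, sub_mul, one_mul] at this

theorem c0_sub (h : PairOK Z a b) :
    |c0 Z a b - 1 - Z a b| ≤ 2 * (Z a b ^ 2 + |Z a a * Z b b|) := by
  have hp := h.al_pos
  have hg := h.al_ge
  have e : c0 Z a b - 1 - Z a b =
      ((1 - Z a b) * Z a b ^ 2 + (1 + Z a b) * (Z a a * Z b b)) / al Z a b := by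
    unfold c0
    rw [eq_div_iff hp.ne']
    have : (al Z a b)⁻¹ * al Z a b = 1 := inv_mul_cancel₀ hp.ne'
    calc ((al Z a b)⁻¹ * (1 - Z a b) - 1 - Z a b) * al Z a b
        = (al Z a b)⁻¹ * al Z a b * (1 - Z a b) - (1 + Z a b) * al Z a b := by ring
      _ = _ := by rw [this]; unfold al; ring
  rw [e, abs_div, abs_of_pos hp, div_le_iff₀ hp]
  have h1 := abs_le.1 h.1
  have t1 : |(1 - Z a b) * Z a b ^ 2| ≤ 9 / 8 * Z a b ^ 2 := by
    rw [abs_mul, abs_of_nonneg (sq_nonneg (Z a b))]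
    refine mul_le_mul_of_nonneg_right ?_ (sq_nonneg _)
    rw [abs_le]; constructor <;> linarith [h1.1, h1.2]
  have t2 : |(1 + Z a b) * (Z a a * Z b b)| ≤ 9 / 8 * |Z a a * Z b b| := by
    rw [abs_mul]
    refine mul_le_mul_of_nonneg_right ?_ (abs_nonneg _)
    rw [abs_le]; constructor <;> linarith [h1.1, h1.2]
  refine (ta2 t1 t2).trans ?_
  nlinarith [sq_nonneg (Z a b), abs_nonneg (Z a a * Z b b)]

theorem Bm_eq : Bm Z a b = !![c1 Z a b, c0 Z a b; c0 Z a b, c2 Z a b] := by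
  ext i j; fin_cases i <;> fin_cases j <;> simp [Bm, c1, c0, c2]

theorem Om_eq (hZ : Z.IsSymm) (j : ℕ) : Om Z a b j =
    !![c1 Z a b * rh Z j a a + c0 Z a b * rh Z j a b,
        c1 Z a b * rh Z j a b + c0 Z a b * rh Z j b b;
      c0 Z a b * rh Z j a a + c2 Z a b * rh Z j a b,
        c0 Z a b * rh Z j a b + c2 Z a b * rh Z j b b] := by
  unfold Om
  rw [Bm_eq, blk_rh hZ]
  ext i k; fin_cases i <;> fin_cases k <;> simp [Matrix.mul_apply, Fin.sum_univ_two]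

theorem tr2 (x y z w : ℝ) : (!![x, y; z, w]).trace = x + w := by
  simp [Matrix.trace, Fin.sum_univ_two]

theorem trO1 (hZ : Z.IsSymm) (j : ℕ) : (Om Z a b j).trace =
    c1 Z a b * rh Z j a a + 2 * c0 Z a b * rh Z j a b + c2 Z a b * rh Z j b b := by
  rw [Om_eq hZ, tr2]; ring

theorem trO2 (hZ : Z.IsSymm) (i j : ℕ) : (Om Z a b i * Om Z a b j).trace =
    P2 (c1 Z a b) (c0 Z a b) (c2 Z a b) (rh Z i a a) (rh Z i b b) (rh Z i a b)
      (rh Z j a a) (rh Z j b b) (rh Z j a b) := by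
  rw [Om_eq hZ, Om_eq hZ]
  simp only [Matrix.trace, Matrix.diag_apply, Fin.sum_univ_two, Matrix.mul_apply,
    Matrix.of_apply, Matrix.cons_val', Matrix.cons_val_zero, Matrix.cons_val_one,
    Matrix.cons_val_fin_one]
  unfold P2; ring

theorem trO3 (hZ : Z.IsSymm) : (Om Z a b 0 ^ 3).trace =
    P3 (c1 Z a b) (c0 Z a b) (c2 Z a b) (rh Z 0 a a) (rh Z 0 b b) (rh Z 0 a b) := by
  rw [Om_eq hZ, pow_succ, sq]
  simp only [Matrix.trace, Matrix.diag_apply, Fin.sum_univ_two, Matrix.mul_apply,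
    Matrix.of_apply, Matrix.cons_val', Matrix.cons_val_zero, Matrix.cons_val_one,
    Matrix.cons_val_fin_one]
  unfold P3; ring

theorem trO21 (hZ : Z.IsSymm) : (Om Z a b 0 ^ 2 * Om Z a b 1).trace =
    P21 (c1 Z a b) (c0 Z a b) (c2 Z a b) (rh Z 0 a a) (rh Z 0 b b) (rh Z 0 a b)
      (rh Z 1 a a) (rh Z 1 b b) (rh Z 1 a b) := by
  rw [Om_eq hZ, Om_eq hZ, sq]
  simp only [Matrix.trace, Matrix.diag_apply, Fin.sum_univ_two, Matrix.mul_apply,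
    Matrix.of_apply, Matrix.cons_val', Matrix.cons_val_zero, Matrix.cons_val_one,
    Matrix.cons_val_fin_one]
  unfold P21; ring

theorem trO4 (hZ : Z.IsSymm) : (Om Z a b 0 ^ 4).trace =
    P4 (c1 Z a b) (c0 Z a b) (c2 Z a b) (rh Z 0 a a) (rh Z 0 b b) (rh Z 0 a b) := by
  rw [Om_eq hZ, show (4 : ℕ) = 2 + 2 from rfl, pow_add, sq]
  simp only [Matrix.trace, Matrix.diag_apply, Fin.sum_univ_two, Matrix.mul_apply,
    Matrix.of_apply, Matrix.cons_val', Matrix.cons_val_zero, Matrix.cons_val_one,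
    Matrix.cons_val_fin_one]
  unfold P4; ring

/-- `σ_j` -/
def sgm (Z : Matrix ι ι ℝ) (j : ℕ) (a b : ι) : ℝ :=
  sg (Z a a) (Z b b) (rh Z j a a) (rh Z j b b) (rh Z j a b)

/-- pair product `|α_i β_j| + |β_i α_j|` -/
def pp (Z : Matrix ι ι ℝ) (i j : ℕ) (a b : ι) : ℝ :=
  |rh Z i a a| * |rh Z j b b| + |rh Z i b b| * |rh Z j a a|

/-- error of `tr O_{j+1}` -/
def eL (Z : Matrix ι ι ℝ) (j : ℕ) (a b : ι) : ℝ :=
  2 * (2 * (Z a b ^ 2 + |Z a a * Z b b|) * |rh Z j a b|) +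
    4 * dl Z a b * (|Z b b| * |rh Z j a a| + |Z a a| * |rh Z j b b|)

/-- error of `tr O_{i+1} O_{j+1}` -/
def eQ (Z : Matrix ι ι ℝ) (i j : ℕ) (a b : ι) : ℝ :=
  6 * (dl Z a b * pp Z i j a b + sgm Z i a b * sgm Z j a b)

theorem trO1_bd (hZ : Z.IsSymm) (h : PairOK Z a b) (j : ℕ) :
    |(Om Z a b j).trace - (2 * rh Z j a b + 2 * (Z a b * rh Z j a b) +
      (Z b b * rh Z j a a + Z a a * rh Z j b b))| ≤ eL Z j a b := by
  rw [trO1 hZ]
  have := lin_bd2 (Cf_of h) (c0_sub h) (rh Z j a a) (rh Z j b b) (rh Z j a b)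
  unfold eL
  exact this

theorem trO2_bd (hZ : Z.IsSymm) (h : PairOK Z a b) (i j : ℕ) :
    |(Om Z a b i * Om Z a b j).trace - (rh Z i a a * rh Z j b b + rh Z i b b * rh Z j a a)| ≤
      eQ Z i j a b := by
  rw [trO2 hZ]
  refine (P2_bd (Cf_of h) _ _ _ _ _ _).trans ?_
  unfold eQ pp sgm
  exact mul_le_mul_of_nonneg_left (e2_le _ _ _ _ _ _ _ _ _) (by norm_num)

/-- main terms of `ΔT₃` -/
def m3 (Z : Matrix ι ι ℝ) (a b : ι) : ℝ :=
  3 * (Z b b * rh Z 2 a a + Z a a * rh Z 2 b b) +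
    3 * (rh Z 0 a a * rh Z 1 b b + rh Z 0 b b * rh Z 1 a a)

/-- pointwise error for `ΔT₃` -/
def E3 (Z : Matrix ι ι ℝ) (a b : ι) : ℝ :=
  3 * eL Z 2 a b + 3 * eQ Z 0 1 a b +
    (30 * sgm Z 0 a b ^ 3 + 21 * ((|rh Z 0 a a| * |rh Z 0 b b|) * sgm Z 0 a b))

theorem T3_pair (hab : a ≠ b) (hZ : Z.IsSymm) (h : PairOK Z a b) :
    |(upd Z a b ^ 3).trace - (Z ^ 3).trace -
      (6 * rh Z 2 a b + 6 * (Z a b * rh Z 2 a b) + m3 Z a b)| ≤ E3 Z a b := by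
  rw [trace_upd_cube_Om hab hZ h.al_ne]
  have h1 := abs_le.1 (trO1_bd hZ h 2)
  have h2 := abs_le.1 (trO2_bd hZ h 0 1)
  have h3 := P3_bd (Cf_of h) (rh Z 0 a a) (rh Z 0 b b) (rh Z 0 a b)
  rw [← trO3 hZ] at h3
  have h3 := abs_le.1 h3
  unfold E3 m3
  unfold sgm
  rw [abs_le]
  constructor
  · linarith [h1.1, h2.1, h3.1]
  · linarith [h1.2, h2.2, h3.2]

/-- main terms of `ΔT₄` -/
def m4 (Z : Matrix ι ι ℝ) (a b : ι) : ℝ :=
  4 * (Z b b * rh Z 3 a a + Z a a * rh Z 3 b b) +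
    4 * (rh Z 0 a a * rh Z 2 b b + rh Z 0 b b * rh Z 2 a a) +
    2 * (rh Z 1 a a * rh Z 1 b b + rh Z 1 b b * rh Z 1 a a)

/-- pointwise error for `ΔT₄` -/
def E4 (Z : Matrix ι ι ℝ) (a b : ι) : ℝ :=
  4 * eL Z 3 a b + 4 * eQ Z 0 2 a b + 2 * eQ Z 1 1 a b +
    4 * (26 * (sgm Z 0 a b ^ 2 * sgm Z 1 a b) +
      7 * ((|rh Z 0 a a| * |rh Z 0 b b|) * sgm Z 1 a b) + 7 * (sgm Z 0 a b * pp Z 0 1 a b)) +
    170 * ((sgm Z 0 a b ^ 2) ^ 2 + (|rh Z 0 a a| * |rh Z 0 b b|) ^ 2)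

theorem T4_pair (hab : a ≠ b) (hZ : Z.IsSymm) (h : PairOK Z a b) :
    |(upd Z a b ^ 4).trace - (Z ^ 4).trace + 2 -
      (8 * rh Z 3 a b + 8 * (Z a b * rh Z 3 a b) + m4 Z a b)| ≤ E4 Z a b := by
  rw [trace_upd_four_Om hab hZ h.al_ne]
  have h1 := abs_le.1 (trO1_bd hZ h 3)
  have h2 := abs_le.1 (trO2_bd hZ h 0 2)
  have h3 := abs_le.1 (trO2_bd hZ h 1 1)
  have h4 := P21_bd (Cf_of h) (rh Z 0 a a) (rh Z 0 b b) (rh Z 0 a b)
    (rh Z 1 a a) (rh Z 1 b b) (rh Z 1 a b)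
  rw [← trO21 hZ] at h4
  have h4 := abs_le.1 h4
  have h5 := P4_bd (Cf_of h) (rh Z 0 a a) (rh Z 0 b b) (rh Z 0 a b)
  rw [← trO4 hZ] at h5
  have h5 := abs_le.1 h5
  rw [← sq] at h3
  unfold E4 m4
  unfold sgm pp
  rw [abs_le]
  constructor
  · linarith [h1.1, h2.1, h3.1, h4.1, h5.1]
  · linarith [h1.2, h2.2, h3.2, h4.2, h5.2]

end Vale.Agent.P049.TS.T34
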