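import Vale.Agent.P049.TS.T34.Upper

/-!
The rate lemma for the potential `f4` (phases I and II).
-/

set_option linter.unusedSectionVars false
set_option exponentiation.threshold 3000

namespace Vale.Agent.P049.TS.T34

open Matrix Finset Vale.Agent.P049.TS.Asm

/-- environment with 18 variables -/
def en {α : Type*} [Zero α] (b t s v w x a1 e H lam cw p377 p384 p683 p1000 dd D dl : α) : ℕ → α
  | 0 => b | 1 => t | 2 => s | 3 => v | 4 => w | 5 => x | 6 => a1 | 7 => e | 8 => H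
  | 9 => lam | 10 => cw | 11 => p377 | 12 => p384 | 13 => p683 | 14 => p1000 | 15 => dd
  | 16 => D | 17 => dl | _ => 0

section
variable (b t s v w x a1 e H lam cw p377 p384 p683 p1000 dd D dl : Ex)

def rbsE : Ex := 32 * lam ^ 2 + (4 * (1 + dd) + 128 + 64 * s ^ 2) * lam

def tilt4E : Ex := lam * (cw * b ^ 4 + b ^ 4 + cw * b ^ 2) + 9 * lam * v * (b ^ 5 + b ^ 3) +
  rbsE s lam dd * (b ^ 5 + t * b ^ 2)

def G4E : Ex :=
  16 * (p377 * (b ^ 5 + b * t ^ 2) + 5 * dd * p384 * (b * t ^ 2 + b ^ 4)) +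
  16 * (p683 * b ^ 4 + t ^ 2 * t ^ 2) +
  8 * (2 * (3 * dd * p1000) ^ 2 + 2 * (5 * dd * p384) ^ 2) + 16 * tilt4E b t s v lam cw dd +
  err4E b t s v w x a1 e H
end

abbrev g4 : Ex := G4E (.v 0) (.v 1) (.v 2) (.v 3) (.v 4) (.v 5) (.v 6) (.v 7) (.v 8) (.v 9) (.v 10)
  (.v 11) (.v 12) (.v 13) (.v 14) (.v 15)

section
variable (b t s v w x a1 e H lam cw p377 p384 p683 p1000 dd D dl : ℝ)

/-- real form of the tilt bound -/
def tilt4 : ℝ := lam * (cw * b ^ 4 + b ^ 4 + cw * b ^ 2) + 9 * lam * v * (b ^ 5 + b ^ 3) +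
  Tilt.rbs lam dd s * (b ^ 5 + t * b ^ 2)

theorem g4_ev : g4.ev (en b t s v w x a1 e H lam cw p377 p384 p683 p1000 dd D dl) =
    2 * (8 * (p377 * (b ^ 5 + b * t ^ 2) + 5 * dd * p384 * (b * t ^ 2 + b ^ 4)) +
    8 * (p683 * b ^ 4 + t ^ 2 * t ^ 2) +
    4 * (2 * (3 * dd * p1000) ^ 2 + 2 * (5 * dd * p384) ^ 2) + 8 * tilt4 b t s v lam cw dd +
    err4 b t s v w x a1 e H) := by
  have h := err4_ev b t s v w x a1 e H
  rw [mul_add, h]
  simp only [g4, e4, G4E, tilt4E, rbsE, err4E, QbE, Ex.ev_add, Ex.ev_mul, Ex.ev_pow, Ex.ev_ofNat,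
    Ex.ev_v, en, envv, tilt4, Tilt.rbs]
  push_cast
  ring
end

/-! exponents -/

def zI1 : ℕ → ℤ :=
  en 1201 1604 160 1220 1604 2402 2613 1604 2348 744 1724 1508 1536 2732 4000 0 2732 3800
def zI2 : ℕ → ℤ :=
  en 1002 2002 160 1220 2002 2004 2613 2002 2746 744 2122 1508 1536 2732 4000 0 2732 3800
def zII1 : ℕ → ℤ :=
  en 1304 1398 160 1380 1398 2608 2693 1398 0 0 0 0 1536 2732 4000 0 2740 3972
def zII2 : ℕ → ℤ :=
  en 1201 1604 160 1380 1604 2402 2693 1604 0 0 0 0 1536 2732 4000 0 2732 3972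

theorem g4_I1 : g4.y zI1 ≤ 8008 := by decide
theorem g4_I2 : g4.y zI2 ≤ 8008 := by decide
theorem g4_II1 : g4.y zII1 ≤ 8008 := by decide
theorem g4_II2 : g4.y zII2 ≤ 8008 := by decide

/-- constants of the phase I -/
noncomputable def κI (d : ℕ) : ℕ → ℝ :=
  en 1 2 1 1 2 1 3 (d + 25) 4 1 1 1 1 1 1 ((d : ℝ) * (d + 1)) (16 * (d : ℝ) ^ 4 + 1) 1

/-- constants of the phase II -/
noncomputable def κII (d : ℕ) : ℕ → ℝ :=
  en 1 2 1 1 2 1 3 (d + 25) 0 0 0 0 1 1 1 ((d : ℝ) * (d + 1)) (16 * (d : ℝ) ^ 4 + 1) 1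

theorem κI_nonneg (d : ℕ) (i : ℕ) : 0 ≤ κI d i := by
  unfold κI en
  split <;> positivity

theorem κII_nonneg (d : ℕ) (i : ℕ) : 0 ≤ κII d i := by
  unfold κII en
  split <;> positivity

-- GENERATED

variable {n d k : ℕ}

/-! ### phase I -/

/-- the real environment of the phase I -/
noncomputable def ρI (n d k : ℕ) : ℕ → ℝ :=
  en (bP n d k) (tP n d k) (sP n d k) (vP n d k) (wP n d k) (bP n d k ^ 2) (3 * Asm.Em (LL n) (XX n d k) 802 1001 2613 2613) (eP n d k) (HP n d k) (lam n) (cP n d k) ((sR n : ℝ) ^ 377) ((sR n : ℝ) ^ 384) ((sR n : ℝ) ^ 683) ((sR n : ℝ) ^ 1000) ((d : ℝ) * (d + 1)) ((sR n : ℝ) ^ 683) ((sR n : ℝ) ^ 950)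

theorem DI (hσ : 2000 ≤ sR n) : (sR n : ℝ) ^ 683 ≤
    (16 * (d : ℝ) ^ 4 + 1) * Asm.Em (LL n) (XX n d k) 802 1001 2732 2732 := by
  rw [sR_pow_Em hσ (X := XX n d k) (show (802 : ℝ) < 1001 by norm_num) 683]
  have h := Em_pos (LL n) (XX n d k) 802 1001 2732 2732
  have h1 : (0 : ℝ) ≤ 16 * (d : ℝ) ^ 4 := by positivity
  push_cast
  norm_num
  nlinarith

theorem ρI_le (hσ : 2000 ≤ sR n) (hk : k < k1 n d) : ∀ i : ℕ,
    ρI n d k i ≤ κI d i * Asm.Em (LL n) (XX n d k) 802 1001 (zI1 i) (zI2 i)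
  | 0 => show bP n d k ≤ 1 * Asm.Em (LL n) (XX n d k) 802 1001 1201 1002 from by rw [bP_I, one_mul]
  | 1 => show tP n d k ≤ 2 * Asm.Em (LL n) (XX n d k) 802 1001 1604 2002 from tP_I
  | 2 => show sP n d k ≤ 1 * Asm.Em (LL n) (XX n d k) 802 1001 160 160 from by rw [sP_I, one_mul]
  | 3 => show vP n d k ≤ 1 * Asm.Em (LL n) (XX n d k) 802 1001 1220 1220 from by rw [vP_I hk, one_mul]
  | 4 => show wP n d k ≤ 2 * Asm.Em (LL n) (XX n d k) 802 1001 1604 2002 from le_of_eq wP_I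
  | 5 => show bP n d k ^ 2 ≤ 1 * Asm.Em (LL n) (XX n d k) 802 1001 2402 2004 from by rw [bP_I, one_mul, Em_pow]; norm_num
  | 6 => show 3 * Asm.Em (LL n) (XX n d k) 802 1001 2613 2613 ≤ 3 * Asm.Em (LL n) (XX n d k) 802 1001 2613 2613 from le_rfl
  | 7 => show eP n d k ≤ (d + 25) * Asm.Em (LL n) (XX n d k) 802 1001 1604 2002 from le_of_eq eP_I
  | 8 => show HP n d k ≤ 4 * Asm.Em (LL n) (XX n d k) 802 1001 2348 2746 from HP_I hσ hk
  | 9 => show lam n ≤ 1 * Asm.Em (LL n) (XX n d k) 802 1001 744 744 from by rw [one_mul]; exact le_of_eq (lam_I hσ)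
  | 10 => show cP n d k ≤ 1 * Asm.Em (LL n) (XX n d k) 802 1001 1724 2122 from by rw [cP_I, one_mul]
  | 11 => show (sR n : ℝ) ^ 377 ≤ 1 * Asm.Em (LL n) (XX n d k) 802 1001 1508 1508 from by rw [one_mul]; exact le_of_eq (sR_pow_Em hσ (by norm_num) 377)
  | 12 => show (sR n : ℝ) ^ 384 ≤ 1 * Asm.Em (LL n) (XX n d k) 802 1001 1536 1536 from by rw [one_mul]; exact le_of_eq (sR_pow_Em hσ (by norm_num) 384)
  | 13 => show (sR n : ℝ) ^ 683 ≤ 1 * Asm.Em (LL n) (XX n d k) 802 1001 2732 2732 from by rw [one_mul]; exact le_of_eq (sR_pow_Em hσ (by norm_num) 683)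
  | 14 => show (sR n : ℝ) ^ 1000 ≤ 1 * Asm.Em (LL n) (XX n d k) 802 1001 4000 4000 from by rw [one_mul]; exact le_of_eq (sR_pow_Em hσ (by norm_num) 1000)
  | 15 => show ((d : ℝ) * (d + 1)) ≤ ((d : ℝ) * (d + 1)) * Asm.Em (LL n) (XX n d k) 802 1001 0 0 from by rw [Em_zero, mul_one]
  | 16 => show (sR n : ℝ) ^ 683 ≤ (16 * (d : ℝ) ^ 4 + 1) * Asm.Em (LL n) (XX n d k) 802 1001 2732 2732 from DI hσ
  | 17 => show (sR n : ℝ) ^ 950 ≤ 1 * Asm.Em (LL n) (XX n d k) 802 1001 3800 3800 from by rw [one_mul]; exact le_of_eq (sR_pow_Em hσ (by norm_num) 950)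
  | (i + 18) => show (0 : ℝ) ≤ 0 * Asm.Em (LL n) (XX n d k) 802 1001 0 0 by rw [zero_mul]

/-! ### phase II -/

/-- the real environment of the phase II -/
noncomputable def ρII (n d k : ℕ) : ℕ → ℝ :=
  en (bP n d k) (tP n d k) (sP n d k) (vP n d k) (wP n d k) (bP n d k ^ 2) (3 * Asm.Em (LL n) (XX n d k) 699 802 2693 2693) (eP n d k) (HP n d k) 0 0 0 ((sR n : ℝ) ^ 384) ((sR n : ℝ) ^ 683) ((sR n : ℝ) ^ 1000) ((d : ℝ) * (d + 1)) (16 * (d : ℝ) ^ 4 * mo (LL n) (XX n d k) 1384 (-1) + (sR n : ℝ) ^ 683) ((sR n : ℝ) ^ 993)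

theorem DII (hσ : 2000 ≤ sR n) (hd : 3 ≤ d) (hk1 : k1 n d ≤ k) (hk : k < k2 n d) :
    16 * (d : ℝ) ^ 4 * mo (LL n) (XX n d k) 1384 (-1) + (sR n : ℝ) ^ 683 ≤
    (16 * (d : ℝ) ^ 4 + 1) * Asm.Em (LL n) (XX n d k) 699 802 2740 2732 := by
  have R := rg2 hσ hd hk1 hk
  rw [sR_pow_Em hσ (X := XX n d k) (show (699 : ℝ) < 802 by norm_num) 683,
    mo_eq_Em (y1 := 2740) (y2 := 2328) (show (699 : ℝ) < 802 by norm_num) (by norm_num)
      (by norm_num)]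
  have h1 := Em_le R (show (2740 : ℤ) ≤ 2740 by norm_num) (show (2328 : ℤ) ≤ 2732 by norm_num)
  have h2 := Em_le R (show (4 * (683 : ℕ) : ℤ) ≤ 2740 by norm_num)
    (show (4 * (683 : ℕ) : ℤ) ≤ 2732 by norm_num)
  have h3 : (0 : ℝ) ≤ 16 * (d : ℝ) ^ 4 := by positivity
  have h4 := mul_le_mul_of_nonneg_left h1 h3
  linarith

theorem ρII_le (hσ : 2000 ≤ sR n) (hd : 3 ≤ d) (hk1 : k1 n d ≤ k) (hk : k < k2 n d) : ∀ i : ℕ,
    ρII n d k i ≤ κII d i * Asm.Em (LL n) (XX n d k) 699 802 (zII1 i) (zII2 i)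
  | 0 => show bP n d k ≤ 1 * Asm.Em (LL n) (XX n d k) 699 802 1304 1201 from by rw [bP_II, one_mul]
  | 1 => show tP n d k ≤ 2 * Asm.Em (LL n) (XX n d k) 699 802 1398 1604 from tP_II
  | 2 => show sP n d k ≤ 1 * Asm.Em (LL n) (XX n d k) 699 802 160 160 from by rw [sP_II, one_mul]
  | 3 => show vP n d k ≤ 1 * Asm.Em (LL n) (XX n d k) 699 802 1380 1380 from by rw [vP_II hk1, one_mul]
  | 4 => show wP n d k ≤ 2 * Asm.Em (LL n) (XX n d k) 699 802 1398 1604 from le_of_eq wP_II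
  | 5 => show bP n d k ^ 2 ≤ 1 * Asm.Em (LL n) (XX n d k) 699 802 2608 2402 from by rw [bP_II, one_mul, Em_pow]; norm_num
  | 6 => show 3 * Asm.Em (LL n) (XX n d k) 699 802 2693 2693 ≤ 3 * Asm.Em (LL n) (XX n d k) 699 802 2693 2693 from le_rfl
  | 7 => show eP n d k ≤ (d + 25) * Asm.Em (LL n) (XX n d k) 699 802 1398 1604 from le_of_eq eP_II
  | 8 => show HP n d k ≤ 0 * Asm.Em (LL n) (XX n d k) 699 802 0 0 from by rw [HP_II hk1, zero_mul]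
  | 9 => show (0 : ℝ) ≤ 0 * Asm.Em (LL n) (XX n d k) 699 802 0 0 from by rw [zero_mul]
  | 10 => show (0 : ℝ) ≤ 0 * Asm.Em (LL n) (XX n d k) 699 802 0 0 from by rw [zero_mul]
  | 11 => show (0 : ℝ) ≤ 0 * Asm.Em (LL n) (XX n d k) 699 802 0 0 from by rw [zero_mul]
  | 12 => show (sR n : ℝ) ^ 384 ≤ 1 * Asm.Em (LL n) (XX n d k) 699 802 1536 1536 from by rw [one_mul]; exact le_of_eq (sR_pow_Em hσ (by norm_num) 384)
  | 13 => show (sR n : ℝ) ^ 683 ≤ 1 * Asm.Em (LL n) (XX n d k) 699 802 2732 2732 from by rw [one_mul]; exact le_of_eq (sR_pow_Em hσ (by norm_num) 683)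
  | 14 => show (sR n : ℝ) ^ 1000 ≤ 1 * Asm.Em (LL n) (XX n d k) 699 802 4000 4000 from by rw [one_mul]; exact le_of_eq (sR_pow_Em hσ (by norm_num) 1000)
  | 15 => show ((d : ℝ) * (d + 1)) ≤ ((d : ℝ) * (d + 1)) * Asm.Em (LL n) (XX n d k) 699 802 0 0 from by rw [Em_zero, mul_one]
  | 16 => show 16 * (d : ℝ) ^ 4 * mo (LL n) (XX n d k) 1384 (-1) + (sR n : ℝ) ^ 683 ≤ (16 * (d : ℝ) ^ 4 + 1) * Asm.Em (LL n) (XX n d k) 699 802 2740 2732 from DII hσ hd hk1 hk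
  | 17 => show (sR n : ℝ) ^ 993 ≤ 1 * Asm.Em (LL n) (XX n d k) 699 802 3972 3972 from by rw [one_mul]; exact le_of_eq (sR_pow_Em hσ (by norm_num) 993)
  | (i + 18) => show (0 : ℝ) ≤ 0 * Asm.Em (LL n) (XX n d k) 699 802 0 0 by rw [zero_mul]

end Vale.Agent.P049.TS.T34
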