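import Vale.Agent.P049.TS.T34.Drift34
import Vale.Agent.P049.TS.Asm.Expo

/-!
Exponent bounds for the error polynomials of `T₃` and `T₄`.
-/

namespace Vale.Agent.P049.TS.T34

open Vale.Agent.P049.TS.Asm

section
variable (b t s v w x a1 e H : Ex)

def QbE : Ex := 3 * ((s * v) ^ 2 + (s * v) ^ 2 + w ^ 2)

/-- `2 err3` -/
def err3E : Ex :=
  2 * (e * (6 * (b ^ 2 * x) + (6 * (s * ((b ^ 2 + 1) * w)) + 6 * (v * a1))) +
  H * (6 * (s * ((b ^ 2 + 1) * w)) + 6 * (v * a1))) +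
  3 * (6 * (t * (b ^ 2 * x)) +
    (12 * ((t + s ^ 2) * (2 * (s * ((b ^ 2 + 1) * w)) + b ^ 2 * x)) +
      18 * ((t + s ^ 2) * (2 * (v * a1)) + (2 * (s * v) + x) * (2 * (s * a1) + b * x)) +
      (30 * QbE s v w + 21 * v ^ 2) * (2 * (s * v) + x)))

/-- `2 err4` -/
def err4E : Ex :=
  2 * (e * (8 * (b ^ 3 * x) +
    (8 * (s * (b * (b ^ 2 + 1) * w)) + 8 * (v * ((b ^ 2 + 1) * w)) + 4 * (a1 * a1))) +
  H * (8 * (s * (b * (b ^ 2 + 1) * w)) + 8 * (v * ((b ^ 2 + 1) * w)) + 4 * (a1 * a1))) +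
  3 * (8 * (t * (b ^ 3 * x)) +
    (16 * ((t + s ^ 2) * (2 * (s * (b * (b ^ 2 + 1) * w)) + b ^ 3 * x)) +
      24 * ((t + s ^ 2) * (2 * (v * ((b ^ 2 + 1) * w))) +
        (2 * (s * v) + x) * (2 * (s * ((b ^ 2 + 1) * w)) + b ^ 2 * x)) +
      12 * ((t + s ^ 2) * (2 * (a1 * a1)) + (2 * (s * a1) + b * x) * (2 * (s * a1) + b * x)) +
      (104 * QbE s v w + 28 * v ^ 2) * (2 * (s * a1) + b * x) +
      28 * ((2 * (s * v) + x) * (2 * (v * a1))) + 170 * (QbE s v w ^ 2 + (v ^ 2) ^ 2)))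

def N01E : Ex :=
  4 * (s * v) * (s * a1) + 2 * (s * v) * (b * (1 + v) + 1) + 2 * (1 + v) * (s * a1) +
    (b * w ^ 2 + (1 + v) * t)

def sd3E : Ex :=
  7 * (b ^ 2 * x) + (6 * (s * ((b ^ 2 + 1) * w)) + 6 * (v * a1)) +
    3 * (2 * (s * ((b ^ 2 + 1) * w)) + b ^ 2 * x) + 9 * (v * a1) + 18 * N01E b t s v w a1 +
    (2 * (s * v) + (1 + v)) * (30 * QbE s v w) + (2 * (s * v) + (1 + v)) * (21 * v ^ 2)
end

/-- the environment `b t s v w x a1 e H` -/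
def envv (b t s v w x a1 e H : ℝ) : ℕ → ℝ
  | 0 => b | 1 => t | 2 => s | 3 => v | 4 => w | 5 => x | 6 => a1 | 7 => e | 8 => H | _ => 0

/-- the integer environment -/
def envz (b t s v w x a1 e H : ℤ) : ℕ → ℤ
  | 0 => b | 1 => t | 2 => s | 3 => v | 4 => w | 5 => x | 6 => a1 | 7 => e | 8 => H | _ => 0

abbrev e3 : Ex := err3E (.v 0) (.v 1) (.v 2) (.v 3) (.v 4) (.v 5) (.v 6) (.v 7) (.v 8)
abbrev e4 : Ex := err4E (.v 0) (.v 1) (.v 2) (.v 3) (.v 4) (.v 5) (.v 6) (.v 7) (.v 8)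
abbrev e5 : Ex := sd3E (.v 0) (.v 1) (.v 2) (.v 3) (.v 4) (.v 5) (.v 6)

variable (b t s v w x a1 e H : ℝ)

theorem err3_ev : 2 * err3 b t s v w x a1 e H = e3.ev (envv b t s v w x a1 e H) := by
  simp only [e3, err3E, QbE, Ex.ev_add, Ex.ev_mul, Ex.ev_pow, Ex.ev_ofNat, Ex.ev_v, envv, err3, Qb]
  push_cast
  ring

theorem err4_ev : 2 * err4 b t s v w x a1 e H = e4.ev (envv b t s v w x a1 e H) := by
  simp only [e4, err4E, QbE, Ex.ev_add, Ex.ev_mul, Ex.ev_pow, Ex.ev_ofNat, Ex.ev_v, envv, err4, Qb]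
  push_cast
  ring

theorem sd3_ev : sd3 b t s v w x a1 = e5.ev (envv b t s v w x a1 e H) := by
  simp only [e5, sd3E, N01E, QbE, Ex.ev_add, Ex.ev_mul, Ex.ev_pow, Ex.ev_ofNat, Ex.ev_v, envv, sd3,
    N01, Qb]
  push_cast
  ring

/-! phase I: `N` from `σ^802` to `σ^1001`; phase II: `σ^699` to `σ^802`. Exponents times 4. -/

def yI1 : ℕ → ℤ := envz 1201 1604 160 1220 1604 2402 2613 1604 2348
def yI2 : ℕ → ℤ := envz 1002 2002 160 1220 2002 2004 2613 2002 2746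
def yII1 : ℕ → ℤ := envz 1304 1398 160 1380 1398 2608 2693 1398 0
def yII2 : ℕ → ℤ := envz 1201 1604 160 1380 1604 2402 2693 1604 0

example : e4.y yI1 ≤ 4 * 2002 := by decide
example : e4.y yI2 ≤ 4 * 2002 := by decide
example : e4.y yII1 ≤ 4 * 2002 := by decide
example : e4.y yII2 ≤ 4 * 2002 := by decide

example : e3.y yI1 ≤ 4 * (949 + 802) := by decide
example : e3.y yI2 ≤ 4 * (949 + 1001) := by decide
example : e3.y yII1 ≤ 4 * (992 + 699) := by decide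
example : e3.y yII2 ≤ 4 * (992 + 802) := by decide

example : 2 * e5.y yI1 ≤ 4 * (1899 + 802) := by decide
example : 2 * e5.y yI2 ≤ 4 * (1899 + 1001) := by decide
example : 2 * e5.y yII1 ≤ 4 * (1985 + 699) := by decide
example : 2 * e5.y yII2 ≤ 4 * (1985 + 802) := by decide

end Vale.Agent.P049.TS.T34
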