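import Mathlib

/-!
Scalar (single pair) estimates for the increments of `T₃` and `T₄` in one join.

`M = [[m1, m], [m, m2]]` is close to the swap: `|m - 1| ≤ 2 δ`, `|m1 - q| ≤ 4 δ |q|`,
`|m2 - p| ≤ 4 δ |p|`, `δ = |r| + |p q| ≤ 1/4`; `x_j = [[a_j, r_j], [r_j, b_j]]`.
-/

namespace Vale.Agent.P049.TS.T34

theorem tb2 {x y X Y : ℝ} (hx : |x| ≤ X) (hy : |y| ≤ Y) : |x * y| ≤ X * Y := by
  rw [abs_mul]
  exact mul_le_mul hx hy (abs_nonneg _) ((abs_nonneg _).trans hx)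

theorem tb3 {x y z X Y Z : ℝ} (hx : |x| ≤ X) (hy : |y| ≤ Y) (hz : |z| ≤ Z) :
    |x * y * z| ≤ X * Y * Z := tb2 (tb2 hx hy) hz

theorem ta2 {x y X Y : ℝ} (hx : |x| ≤ X) (hy : |y| ≤ Y) : |x + y| ≤ X + Y :=
  (abs_add_le x y).trans (add_le_add hx hy)

/-- hypotheses on the coefficients -/
structure Cf (p q r m1 m m2 δ : ℝ) : Prop where
  hr : |r| ≤ δ
  hpq' : |p * q| ≤ δ
  hδ : δ ≤ 1 / 4
  hpq : |p * q| ≤ 1 / 8
  hm : |m - 1| ≤ 2 * δ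
  hm1 : |m1 - q| ≤ 4 * δ * |q|
  hm2 : |m2 - p| ≤ 4 * δ * |p|

variable {p q r m1 m m2 δ : ℝ}

theorem Cf.δ0 (h : Cf p q r m1 m m2 δ) : 0 ≤ δ := (abs_nonneg _).trans h.hr

theorem Cf.m_le (h : Cf p q r m1 m m2 δ) : |m| ≤ 3 / 2 := by
  have h1 := abs_le.mp h.hm
  have h2 := h.hδ
  rw [abs_le]; constructor <;> linarith

theorem Cf.m1_le (h : Cf p q r m1 m m2 δ) : |m1| ≤ 2 * |q| := by
  have h1 := abs_le.mp h.hm1
  have h3 : 4 * δ * |q| ≤ 1 * |q| := by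
    have := h.hδ; gcongr; linarith
  have h4 := neg_abs_le q
  have h5 := le_abs_self q
  rw [abs_le]; constructor <;> linarith

theorem Cf.m2_le (h : Cf p q r m1 m m2 δ) : |m2| ≤ 2 * |p| := by
  have h1 := abs_le.mp h.hm2
  have h3 : 4 * δ * |p| ≤ 1 * |p| := by
    have := h.hδ; gcongr; linarith
  have h4 := neg_abs_le p
  have h5 := le_abs_self p
  rw [abs_le]; constructor <;> linarith

theorem Cf.m1m2_le (h : Cf p q r m1 m m2 δ) : |m1 * m2| ≤ 1 / 2 := by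
  have h1 := tb2 h.m1_le h.m2_le
  have h2 := h.hpq
  rw [abs_mul p q] at h2
  nlinarith [abs_nonneg p, abs_nonneg q]

theorem Cf.msq (h : Cf p q r m1 m m2 δ) : |m ^ 2 - 1| ≤ 5 * δ := by
  have h1 : |m + 1| ≤ 5 / 2 := by
    have := abs_le.mp h.m_le
    rw [abs_le]; constructor <;> linarith
  have := tb2 h.hm h1
  rw [show m ^ 2 - 1 = (m - 1) * (m + 1) by ring]
  linarith

theorem Cf.msq_le (h : Cf p q r m1 m m2 δ) : |m ^ 2| ≤ 9 / 4 := by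
  have := tb2 h.m_le h.m_le
  rw [sq]; linarith

/-- first order part `tr O_{j+1}` -/
theorem lin_bd (h : Cf p q r m1 m m2 δ) (a b c : ℝ) :
    |(m1 * a + 2 * m * c + m2 * b) - (2 * c + (q * a + p * b))| ≤
      4 * δ * (|c| + |q| * |a| + |p| * |b|) := by
  have t1 := abs_le.mp (tb2 h.hm1 (le_refl |a|))
  have t2 := abs_le.mp (tb2 h.hm (le_refl |c|))
  have t3 := abs_le.mp (tb2 h.hm2 (le_refl |b|))
  rw [abs_le]
  constructor <;> nlinarith [t1.1, t1.2, t2.1, t2.2, t3.1, t3.2]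

/-- second order part `tr (O_{i+1} O_{j+1})` -/
def P2 (m1 m m2 a0 b0 r0 a1 b1 r1 : ℝ) : ℝ :=
  (m1 * a0 + m * r0) * (m1 * a1 + m * r1) + (m1 * r0 + m * b0) * (m * a1 + m2 * r1) +
    (m * a0 + m2 * r0) * (m1 * r1 + m * b1) + (m * r0 + m2 * b0) * (m * r1 + m2 * b1)

/-- error monomials of the second order part -/
def e2 (p q δ a0 b0 r0 a1 b1 r1 : ℝ) : ℝ :=
  δ * (|a0| * |b1| + |b0| * |a1|) + |r0| * |r1| + |q| * (|a0| * |r1| + |r0| * |a1|) +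
    |p| * (|b0| * |r1| + |r0| * |b1|) + q ^ 2 * (|a0| * |a1|) + p ^ 2 * (|b0| * |b1|)

theorem P2_bd (h : Cf p q r m1 m m2 δ) (a0 b0 r0 a1 b1 r1 : ℝ) :
    |P2 m1 m m2 a0 b0 r0 a1 b1 r1 - (a0 * b1 + b0 * a1)| ≤ 6 * e2 p q δ a0 b0 r0 a1 b1 r1 := by
  have t1 := abs_le.mp (tb2 h.msq (tb2 (le_refl |a0|) (le_refl |b1|)))
  have t2 := abs_le.mp (tb2 h.msq (tb2 (le_refl |b0|) (le_refl |a1|)))
  have t3 := abs_le.mp (tb2 h.msq_le (tb2 (le_refl |r0|) (le_refl |r1|)))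
  have t4 := abs_le.mp (tb2 h.m1m2_le (tb2 (le_refl |r0|) (le_refl |r1|)))
  have t5 := abs_le.mp (tb3 h.m1_le h.m_le (tb2 (le_refl |a0|) (le_refl |r1|)))
  have t6 := abs_le.mp (tb3 h.m1_le h.m_le (tb2 (le_refl |r0|) (le_refl |a1|)))
  have t7 := abs_le.mp (tb3 h.m2_le h.m_le (tb2 (le_refl |b0|) (le_refl |r1|)))
  have t8 := abs_le.mp (tb3 h.m2_le h.m_le (tb2 (le_refl |r0|) (le_refl |b1|)))
  have t9 := abs_le.mp (tb3 h.m1_le h.m1_le (tb2 (le_refl |a0|) (le_refl |a1|)))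
  have t10 := abs_le.mp (tb3 h.m2_le h.m2_le (tb2 (le_refl |b0|) (le_refl |b1|)))
  have hq : |q| * |q| = q ^ 2 := by rw [← abs_mul, ← sq, abs_of_nonneg (sq_nonneg q)]
  have hp : |p| * |p| = p ^ 2 := by rw [← abs_mul, ← sq, abs_of_nonneg (sq_nonneg p)]
  have e9 : 2 * |q| * (2 * |q|) * (|a0| * |a1|) = 4 * (q ^ 2 * (|a0| * |a1|)) := by
    rw [← hq]; ring
  have e10 : 2 * |p| * (2 * |p|) * (|b0| * |b1|) = 4 * (p ^ 2 * (|b0| * |b1|)) := by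
    rw [← hp]; ring
  rw [e9] at t9
  rw [e10] at t10
  have n1 : 0 ≤ |r0| * |r1| := by positivity
  have n2 : 0 ≤ q ^ 2 * (|a0| * |a1|) := by positivity
  have n3 : 0 ≤ p ^ 2 * (|b0| * |b1|) := by positivity
  have n4 : 0 ≤ δ * (|a0| * |b1|) := mul_nonneg h.δ0 (by positivity)
  have n5 : 0 ≤ δ * (|b0| * |a1|) := mul_nonneg h.δ0 (by positivity)
  unfold P2 e2
  rw [abs_le]
  constructor
  · linarith [t1.1, t2.1, t3.1, t4.1, t5.1, t6.1, t7.1, t8.1, t9.1, t10.1]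
  · linarith [t1.2, t2.2, t3.2, t4.2, t5.2, t6.2, t7.2, t8.2, t9.2, t10.2]

end Vale.Agent.P049.TS.T34
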