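import Vale.Agent.P049.TS.T34.Scalar

/-!
Third and fourth order scalar estimates. `sg q p a b r = |q a| + |p b| + |r|`.
-/

namespace Vale.Agent.P049.TS.T34

variable {p q r m1 m m2 δ : ℝ}

/-- `σ = |q a| + |p b| + |r|` -/
def sg (p q a b r : ℝ) : ℝ := |q| * |a| + |p| * |b| + |r|

theorem sg_nonneg (p q a b r : ℝ) : 0 ≤ sg p q a b r := by unfold sg; positivity

theorem e2_le (p q δ a0 b0 r0 a1 b1 r1 : ℝ) :
    e2 p q δ a0 b0 r0 a1 b1 r1 ≤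
      δ * (|a0| * |b1| + |b0| * |a1|) + sg p q a0 b0 r0 * sg p q a1 b1 r1 := by
  unfold e2 sg
  have hq : q ^ 2 = |q| * |q| := by rw [← abs_mul, ← sq, abs_of_nonneg (sq_nonneg q)]
  have hp : p ^ 2 = |p| * |p| := by rw [← abs_mul, ← sq, abs_of_nonneg (sq_nonneg p)]
  rw [hq, hp]
  have n1 : 0 ≤ |q| * |a0| * (|p| * |b1|) := by positivity
  have n2 : 0 ≤ |p| * |b0| * (|q| * |a1|) := by positivity
  nlinarith [n1, n2]

/-- `tr (Mx₀)³` -/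
def P3 (m1 m m2 a0 b0 r0 : ℝ) : ℝ :=
  (m1 * a0 + m * r0) ^ 3 + (m * r0 + m2 * b0) ^ 3 +
    3 * ((m1 * r0 + m * b0) * (m * a0 + m2 * r0)) * ((m1 * a0 + m * r0) + (m * r0 + m2 * b0))

/-- `tr ((Mx₀)² Mx₁)` -/
def P21 (m1 m m2 a0 b0 r0 a1 b1 r1 : ℝ) : ℝ :=
  (m1 * a0 + m * r0) ^ 2 * (m1 * a1 + m * r1) + (m * r0 + m2 * b0) ^ 2 * (m * r1 + m2 * b1) +
    (m1 * r0 + m * b0) * (m * a0 + m2 * r0) * ((m1 * a1 + m * r1) + (m * r1 + m2 * b1)) +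
    ((m1 * a0 + m * r0) + (m * r0 + m2 * b0)) *
      ((m1 * r0 + m * b0) * (m * a1 + m2 * r1) + (m * a0 + m2 * r0) * (m1 * r1 + m * b1))

/-- `tr (Mx₀)⁴` -/
def P4 (m1 m m2 a0 b0 r0 : ℝ) : ℝ :=
  ((m1 * a0 + m * r0) ^ 2 + (m1 * r0 + m * b0) * (m * a0 + m2 * r0)) ^ 2 +
    ((m * r0 + m2 * b0) ^ 2 + (m1 * r0 + m * b0) * (m * a0 + m2 * r0)) ^ 2 +
    2 * ((m1 * r0 + m * b0) * (m * a0 + m2 * r0)) *
      ((m1 * a0 + m * r0) + (m * r0 + m2 * b0)) ^ 2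

theorem A_le (h : Cf p q r m1 m m2 δ) (a r0 : ℝ) :
    |m1 * a + m * r0| ≤ 2 * (|q| * |a|) + 3 / 2 * |r0| := by
  refine ta2 ?_ ?_
  · have := tb2 h.m1_le (le_refl |a|); linarith
  · exact tb2 h.m_le (le_refl |r0|)

theorem D_le (h : Cf p q r m1 m m2 δ) (b r0 : ℝ) :
    |m * r0 + m2 * b| ≤ 3 / 2 * |r0| + 2 * (|p| * |b|) := by
  refine ta2 ?_ ?_
  · exact tb2 h.m_le (le_refl |r0|)
  · have := tb2 h.m2_le (le_refl |b|); linarith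

theorem A_le' (h : Cf p q r m1 m m2 δ) (a b r0 : ℝ) :
    |m1 * a + m * r0| ≤ 2 * sg p q a b r0 := by
  refine (A_le h a r0).trans ?_
  unfold sg
  have h1 : 0 ≤ |p| * |b| := by positivity
  have h2 : 0 ≤ |r0| := by positivity
  linarith

theorem D_le' (h : Cf p q r m1 m m2 δ) (a b r0 : ℝ) :
    |m * r0 + m2 * b| ≤ 2 * sg p q a b r0 := by
  refine (D_le h b r0).trans ?_
  unfold sg
  have h1 : 0 ≤ |q| * |a| := by positivity
  have h2 : 0 ≤ |r0| := by positivity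
  linarith

theorem AD_le (h : Cf p q r m1 m m2 δ) (a b r0 : ℝ) :
    |m1 * a + m * r0| + |m * r0 + m2 * b| ≤ 3 * sg p q a b r0 := by
  have h1 := A_le h a r0
  have h2 := D_le h b r0
  unfold sg
  have h3 : 0 ≤ |p| * |b| := by positivity
  have h4 : 0 ≤ |q| * |a| := by positivity
  linarith

theorem BC_le (h : Cf p q r m1 m m2 δ) (b0 r0 a1 r1 : ℝ) :
    |(m1 * r0 + m * b0) * (m * a1 + m2 * r1)| ≤
      3 * (|r0| * (|q| * |a1|)) + 3 * ((|p| * |b0|) * |r1|) + 1 / 2 * (|r0| * |r1|) +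
        9 / 4 * (|b0| * |a1|) := by
  have t1 := tb3 h.m1_le h.m_le (tb2 (le_refl |r0|) (le_refl |a1|))
  have t2 := tb2 h.m1m2_le (tb2 (le_refl |r0|) (le_refl |r1|))
  have t3 := tb2 h.msq_le (tb2 (le_refl |b0|) (le_refl |a1|))
  have t4 := tb3 h.m_le h.m2_le (tb2 (le_refl |b0|) (le_refl |r1|))
  have e : (m1 * r0 + m * b0) * (m * a1 + m2 * r1) =
      m1 * m * (r0 * a1) + m1 * m2 * (r0 * r1) + m ^ 2 * (b0 * a1) + m * m2 * (b0 * r1) := by ring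
  rw [e]
  refine (ta2 (ta2 (ta2 t1 t2) t3) t4).trans (le_of_eq (by ring))

/-- diagonal version -/
theorem BC_le' (h : Cf p q r m1 m m2 δ) (a b r0 : ℝ) :
    |(m1 * r0 + m * b) * (m * a + m2 * r0)| ≤ 3 / 2 * sg p q a b r0 ^ 2 + 9 / 4 * (|a| * |b|) := by
  refine (BC_le h b r0 a r0).trans ?_
  unfold sg
  have h1 : 0 ≤ (|q| * |a|) * (|p| * |b|) := by positivity
  nlinarith [sq_nonneg (|q| * |a|), sq_nonneg (|p| * |b|), sq_nonneg (|r0|)]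

theorem BC_le2 (h : Cf p q r m1 m m2 δ) (a0 b0 r0 a1 b1 r1 : ℝ) :
    |(m1 * r0 + m * b0) * (m * a1 + m2 * r1) + (m * a0 + m2 * r0) * (m1 * r1 + m * b1)| ≤
      3 * (sg p q a0 b0 r0 * sg p q a1 b1 r1) + 9 / 4 * (|a0| * |b1| + |b0| * |a1|) := by
  have t1 := BC_le h b0 r0 a1 r1
  have t2 := BC_le h b1 r1 a0 r0
  have e : (m * a0 + m2 * r0) * (m1 * r1 + m * b1) = (m1 * r1 + m * b1) * (m * a0 + m2 * r0) := by
    ring
  rw [e]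
  refine (ta2 t1 t2).trans ?_
  unfold sg
  have n1 : 0 ≤ |q| * |a0| * (|q| * |a1|) := by positivity
  have n2 : 0 ≤ |q| * |a0| * (|p| * |b1|) := by positivity
  have n3 : 0 ≤ |p| * |b0| * (|q| * |a1|) := by positivity
  have n4 : 0 ≤ |p| * |b0| * (|p| * |b1|) := by positivity
  have n5 : 0 ≤ |r0| * |r1| := by positivity
  nlinarith [n1, n2, n3, n4, n5]

theorem P3_bd (h : Cf p q r m1 m m2 δ) (a b r0 : ℝ) :
    |P3 m1 m m2 a b r0| ≤ 30 * sg p q a b r0 ^ 3 + 21 * ((|a| * |b|) * sg p q a b r0) := by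
  have hA := A_le' h a b r0
  have hD := D_le' h a b r0
  have hAD : |(m1 * a + m * r0) + (m * r0 + m2 * b)| ≤ 3 * sg p q a b r0 :=
    (abs_add_le _ _).trans (AD_le h a b r0)
  have hBC := BC_le' h a b r0
  have hs := sg_nonneg p q a b r0
  have hg : 0 ≤ |a| * |b| := by positivity
  unfold P3
  set σ := sg p q a b r0
  have t1 : |(m1 * a + m * r0) ^ 3| ≤ (2 * σ) ^ 3 := by
    rw [abs_pow]; exact pow_le_pow_left₀ (abs_nonneg _) hA 3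
  have t2 : |(m * r0 + m2 * b) ^ 3| ≤ (2 * σ) ^ 3 := by
    rw [abs_pow]; exact pow_le_pow_left₀ (abs_nonneg _) hD 3
  have t3 := tb3 (show |(3 : ℝ)| ≤ 3 by norm_num) hBC hAD
  refine (ta2 (ta2 t1 t2) t3).trans ?_
  have h3 : 0 ≤ σ ^ 3 := by positivity
  have h4 : 0 ≤ (|a| * |b|) * σ := by positivity
  nlinarith [h3, h4]

theorem P21_bd (h : Cf p q r m1 m m2 δ) (a0 b0 r0 a1 b1 r1 : ℝ) :
    |P21 m1 m m2 a0 b0 r0 a1 b1 r1| ≤ 26 * (sg p q a0 b0 r0 ^ 2 * sg p q a1 b1 r1) +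
      7 * ((|a0| * |b0|) * sg p q a1 b1 r1) +
      7 * (sg p q a0 b0 r0 * (|a0| * |b1| + |b0| * |a1|)) := by
  have hA := A_le' h a0 b0 r0
  have hD := D_le' h a0 b0 r0
  have hAD : |(m1 * a0 + m * r0) + (m * r0 + m2 * b0)| ≤ 3 * sg p q a0 b0 r0 :=
    (abs_add_le _ _).trans (AD_le h a0 b0 r0)
  have hAD1 := AD_le h a1 b1 r1
  have hAD1' : |(m1 * a1 + m * r1) + (m * r1 + m2 * b1)| ≤ 3 * sg p q a1 b1 r1 :=
    (abs_add_le _ _).trans hAD1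
  have hBC := BC_le' h a0 b0 r0
  have hBC2 := BC_le2 h a0 b0 r0 a1 b1 r1
  have hs := sg_nonneg p q a0 b0 r0
  have hs1 := sg_nonneg p q a1 b1 r1
  unfold P21
  set σ := sg p q a0 b0 r0
  set σ1 := sg p q a1 b1 r1
  have t1 : |(m1 * a0 + m * r0) ^ 2 * (m1 * a1 + m * r1)| ≤ (2 * σ) ^ 2 * |m1 * a1 + m * r1| := by
    rw [abs_mul, abs_pow]
    exact mul_le_mul_of_nonneg_right (pow_le_pow_left₀ (abs_nonneg _) hA 2) (abs_nonneg _)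
  have t2 : |(m * r0 + m2 * b0) ^ 2 * (m * r1 + m2 * b1)| ≤ (2 * σ) ^ 2 * |m * r1 + m2 * b1| := by
    rw [abs_mul, abs_pow]
    exact mul_le_mul_of_nonneg_right (pow_le_pow_left₀ (abs_nonneg _) hD 2) (abs_nonneg _)
  have t3 := tb2 hBC hAD1'
  have t4 := tb2 hAD hBC2
  refine (ta2 (ta2 (ta2 t1 t2) t3) t4).trans ?_
  have t5 : (2 * σ) ^ 2 * |m1 * a1 + m * r1| + (2 * σ) ^ 2 * |m * r1 + m2 * b1| ≤
      (2 * σ) ^ 2 * (3 * σ1) := by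
    rw [← mul_add]; exact mul_le_mul_of_nonneg_left hAD1 (by positivity)
  have n1 : 0 ≤ σ ^ 2 * σ1 := by positivity
  have n2 : 0 ≤ (|a0| * |b0|) * σ1 := by positivity
  have n3 : 0 ≤ σ * (|a0| * |b1| + |b0| * |a1|) := by positivity
  nlinarith [t5, n1, n2, n3]

theorem P4_bd (h : Cf p q r m1 m m2 δ) (a b r0 : ℝ) :
    |P4 m1 m m2 a b r0| ≤ 170 * ((sg p q a b r0 ^ 2) ^ 2 + (|a| * |b|) ^ 2) := by
  have hA := A_le' h a b r0
  have hD := D_le' h a b r0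
  have hAD : |(m1 * a + m * r0) + (m * r0 + m2 * b)| ≤ 3 * sg p q a b r0 :=
    (abs_add_le _ _).trans (AD_le h a b r0)
  have hBC := BC_le' h a b r0
  have hs := sg_nonneg p q a b r0
  have hg : 0 ≤ |a| * |b| := by positivity
  unfold P4
  set σ := sg p q a b r0
  set g := |a| * |b|
  have tA : |(m1 * a + m * r0) ^ 2| ≤ 4 * σ ^ 2 := by
    rw [abs_pow]
    exact (pow_le_pow_left₀ (abs_nonneg _) hA 2).trans (le_of_eq (by ring))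
  have tD : |(m * r0 + m2 * b) ^ 2| ≤ 4 * σ ^ 2 := by
    rw [abs_pow]
    exact (pow_le_pow_left₀ (abs_nonneg _) hD 2).trans (le_of_eq (by ring))
  have t1 : |((m1 * a + m * r0) ^ 2 + (m1 * r0 + m * b) * (m * a + m2 * r0)) ^ 2| ≤
      (4 * σ ^ 2 + (3 / 2 * σ ^ 2 + 9 / 4 * g)) ^ 2 := by
    rw [abs_pow]; exact pow_le_pow_left₀ (abs_nonneg _) (ta2 tA hBC) 2
  have t2 : |((m * r0 + m2 * b) ^ 2 + (m1 * r0 + m * b) * (m * a + m2 * r0)) ^ 2| ≤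
      (4 * σ ^ 2 + (3 / 2 * σ ^ 2 + 9 / 4 * g)) ^ 2 := by
    rw [abs_pow]; exact pow_le_pow_left₀ (abs_nonneg _) (ta2 tD hBC) 2
  have tAD : |((m1 * a + m * r0) + (m * r0 + m2 * b)) ^ 2| ≤ (3 * σ) ^ 2 := by
    rw [abs_pow]; exact pow_le_pow_left₀ (abs_nonneg _) hAD 2
  have t3 := tb3 (show |(2 : ℝ)| ≤ 2 by norm_num) hBC tAD
  refine (ta2 (ta2 t1 t2) t3).trans ?_
  nlinarith [sq_nonneg (σ ^ 2 - g), sq_nonneg (σ ^ 2), sq_nonneg g]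

/-- first order part with the `r`-correction -/
theorem lin_bd2 (h : Cf p q r m1 m m2 δ) {κ : ℝ} (hm' : |m - 1 - r| ≤ κ) (a b c : ℝ) :
    |(m1 * a + 2 * m * c + m2 * b) - (2 * c + 2 * (r * c) + (q * a + p * b))| ≤
      2 * (κ * |c|) + 4 * δ * (|q| * |a| + |p| * |b|) := by
  have t1 := abs_le.mp (tb2 h.hm1 (le_refl |a|))
  have t2 := abs_le.mp (tb2 hm' (le_refl |c|))
  have t3 := abs_le.mp (tb2 h.hm2 (le_refl |b|))
  rw [abs_le]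
  constructor <;> nlinarith [t1.1, t1.2, t2.1, t2.2, t3.1, t3.2]

end Vale.Agent.P049.TS.T34
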