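import Vale.Agent.P049.TS.T34.RateAux
import Vale.Agent.P049.TS.Asm.ExpoEnv
import Vale.Agent.P049.TS.Asm.Square
import Vale.Agent.P049.TS.Mat.Spectral

/-!
The increments of `T₃`, `T₄` under the hypotheses `EnvA` of the frozen table.
-/

set_option linter.unusedSectionVars false
set_option exponentiation.threshold 3000

namespace Vale.Agent.P049.TS.T34

open Matrix Finset Vale.Agent.P049.TS.Asm

variable {ι : Type*} [Fintype ι] [DecidableEq ι]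
variable {F : Finset ι} {Zp Zm Z : Matrix ι ι ℝ} {forb : ι → ι → Prop} {ε : ℝ} {n d k : ℕ}

theorem d2_ge (hd : 3 ≤ d) : (9 : ℝ) ≤ ((d : ℝ) * (d + 1)) := by
  have hd' : (3 : ℝ) ≤ d := by exact_mod_cast hd
  nlinarith

theorem d2_le (d : ℕ) : (d : ℝ) ^ 2 ≤ (d : ℝ) * (d + 1) := by
  have hd' : (0 : ℝ) ≤ d := Nat.cast_nonneg d
  nlinarith

/-- `|tr Z| ≤ 5 d² σ^384` -/
theorem abs_T1_le (hσ : 2000 ≤ sR n) (hd : 3 ≤ d) (c : OneA n d k ε F Z) :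
    |ε * Z.trace| ≤ 5 * ((d : ℝ) * (d + 1)) * (sR n : ℝ) ^ 384 := by
  have h1 := c.d1
  have h2 : |t1 n d k| ≤ 4 * ((d : ℝ) * (d + 1)) * (sR n : ℝ) ^ 384 := by
    refine (abs_t1_le (k := k) hσ hd).trans ?_
    have := d2_le d
    gcongr
  have h3 : (sR n : ℝ) ^ 377 ≤ (sR n : ℝ) ^ 384 := pow_le_pow_right₀ (sR_one hσ) (by norm_num)
  have h4 := d2_ge hd
  have h5 : (0 : ℝ) ≤ (sR n : ℝ) ^ 384 := by positivity
  have h6 : |ε * Z.trace| ≤ |ε * Z.trace - t1 n d k| + |t1 n d k| := by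
    have := abs_add_le (ε * Z.trace - t1 n d k) (t1 n d k)
    simpa using this
  nlinarith

theorem T1_le_I (hσ : 2000 ≤ sR n) (hd : 3 ≤ d) (c : OneA n d k ε F Z) :
    ε * Z.trace ≤ (sR n : ℝ) ^ 377 := by
  have h1 := (abs_le.1 c.d1).2
  have h2 := t1_nonpos (k := k) hσ hd
  linarith

theorem T1_le_II (hσ : 2000 ≤ sR n) (hd : 3 ≤ d) (hk : k1 n d ≤ k) (c : OneA n d k ε F Z) :
    ε * Z.trace ≤ 0 := by
  have h1 := (abs_le.1 c.d1).2
  rw [t1_of_ge hk] at h1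
  have h2 := K1_ge hσ hd
  have h3 : (sR n : ℝ) ^ 377 ≤ (sR n : ℝ) ^ 384 := pow_le_pow_right₀ (sR_one hσ) (by norm_num)
  linarith

/-- `|tr Z³| ≤ 3 d² σ^1000` -/
theorem abs_T3_le (hσ : 2000 ≤ sR n) (hd : 3 ≤ d) (c : OneA n d k ε F Z) :
    |ε * (Z ^ 3).trace| ≤ 3 * ((d : ℝ) * (d + 1)) * (sR n : ℝ) ^ 1000 := by
  have h1 := c.d3
  have h2 : kap n d ≤ 2 * ((d : ℝ) * (d + 1)) * (sR n : ℝ) ^ 1000 := by
    refine (kap_le' hσ hd).trans ?_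
    have := d2_le d
    gcongr
  have h2' := kap_pos hσ hd
  have h3 : (sR n : ℝ) ^ 993 ≤ (sR n : ℝ) ^ 1000 := pow_le_pow_right₀ (sR_one hσ) (by norm_num)
  have h3' : (sR n : ℝ) ^ 950 ≤ (sR n : ℝ) ^ 993 := pow_le_pow_right₀ (sR_one hσ) (by norm_num)
  have h4 := d2_ge hd
  have h5 : (0 : ℝ) ≤ (sR n : ℝ) ^ 1000 := by positivity
  have h6 : |ε * (Z ^ 3).trace| ≤ |ε * (Z ^ 3).trace - kap n d| + |kap n d| := by
    have := abs_add_le (ε * (Z ^ 3).trace - kap n d) (kap n d)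
    simpa using this
  have h7 : |ε * (Z ^ 3).trace - kap n d| ≤ (sR n : ℝ) ^ 993 := by
    split_ifs at h1
    · linarith
    · exact h1
  rw [abs_of_pos h2'] at h6
  nlinarith

theorem abs_eps {x : ℝ} (hε : ε ^ 2 = 1) : |ε * x| = |x| := by
  have h : |ε| = 1 := by
    have := sq_abs ε
    rw [hε] at this
    have h0 := abs_nonneg ε
    nlinarith
  rw [abs_mul, h, one_mul]

theorem lob_smul (c : OneA n d k ε F Z) : Mat.LoB (ε • Z) 1 := by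
  intro v
  have h := c.lob v
  rw [Matrix.smul_mulVec, dotProduct_smul, smul_eq_mul, one_mul]
  exact h

/-- `ε tr Z⁵ ≥ - tr Z⁴` -/
theorem T5_ge (hε : ε ^ 2 = 1) (c : OneA n d k ε F Z) : -(Z ^ 4).trace ≤ ε * (Z ^ 5).trace := by
  have hs : (ε • Z).IsSymm := by
    unfold Matrix.IsSymm
    rw [Matrix.transpose_smul, c.symm.eq]
  have h := (lob_smul c).trace_odd_ge hs 2
  have e4 : (ε • Z) ^ (2 * 2) = Z ^ 4 := by
    rw [smul_pow, show ε ^ (2 * 2) = (ε ^ 2) ^ 2 by ring, hε]; simp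
  have e5 : (ε • Z) ^ (2 * 2 + 1) = ε • Z ^ 5 := by
    rw [smul_pow, show ε ^ (2 * 2 + 1) = (ε ^ 2) ^ 2 * ε by ring, hε]; simp
  rw [e4, e5, Matrix.trace_smul, smul_eq_mul, one_mul] at h
  exact h

/-- the product `T₁ (T₅ - T₃)` -/
theorem T1T5_le (hσ : 2000 ≤ sR n) (hd : 3 ≤ d) (hε : ε ^ 2 = 1) (c : OneA n d k ε F Z) {p : ℝ}
    (hx : ε * Z.trace ≤ p) :
    Z.trace * ((Z ^ 5).trace - (Z ^ 3).trace) ≤
      p * (bP n d k ^ 5 + bP n d k * tP n d k ^ 2) ∨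
    Z.trace * ((Z ^ 5).trace - (Z ^ 3).trace) ≤
      5 * ((d : ℝ) * (d + 1)) * (sR n : ℝ) ^ 384 * (bP n d k * tP n d k ^ 2 + bP n d k ^ 4) := by
  have hb := bP_nonneg n d k
  have h3 := c.ctl.opB.abs_trace_pow_le c.symm hb 1 1
  have h5 := c.ctl.opB.abs_trace_pow_le c.symm hb 1 2
  have e3 : (1 : ℕ) + 2 * 1 = 3 := rfl
  have e5 : (1 : ℕ) + 2 * 2 = 5 := rfl
  rw [e3, pow_one, show 2 * 1 = 2 from rfl] at h3
  rw [e5, pow_one, show 2 * 2 = 4 from rfl] at h5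
  have h3' : |(Z ^ 3).trace| ≤ bP n d k * tP n d k ^ 2 :=
    h3.trans (mul_le_mul_of_nonneg_left c.T2 hb)
  have h5' : |(Z ^ 5).trace| ≤ bP n d k ^ 5 :=
    h5.trans ((mul_le_mul_of_nonneg_left c.T4 hb).trans (le_of_eq (by ring)))
  have h6 := T5_ge hε c
  have h7 := abs_T1_le hσ hd c
  have h8 : |ε * (Z ^ 3).trace| ≤ bP n d k * tP n d k ^ 2 := by rw [abs_eps hε]; exact h3'
  have h9 : |ε * (Z ^ 5).trace| ≤ bP n d k ^ 5 := by rw [abs_eps hε]; exact h5'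
  have e : Z.trace * ((Z ^ 5).trace - (Z ^ 3).trace) =
      (ε * Z.trace) * (ε * (Z ^ 5).trace - ε * (Z ^ 3).trace) := by
    calc _ = 1 * (Z.trace * ((Z ^ 5).trace - (Z ^ 3).trace)) := by ring
      _ = _ := by rw [← hε]; ring
  rw [e]
  rcases le_total 0 (ε * Z.trace) with h0 | h0
  · left
    have k1 : ε * (Z ^ 5).trace - ε * (Z ^ 3).trace ≤ bP n d k ^ 5 + bP n d k * tP n d k ^ 2 := by
      have := (abs_le.1 h9).2
      have := (abs_le.1 h8).1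
      linarith
    have k2 : 0 ≤ bP n d k ^ 5 + bP n d k * tP n d k ^ 2 := by positivity
    exact (mul_le_mul_of_nonneg_left k1 h0).trans (mul_le_mul_of_nonneg_right hx k2)
  · right
    have k1 : ε * (Z ^ 3).trace - ε * (Z ^ 5).trace ≤ bP n d k * tP n d k ^ 2 + bP n d k ^ 4 := by
      have := (abs_le.1 h8).2
      have := c.T4
      linarith
    have k2 : 0 ≤ bP n d k * tP n d k ^ 2 + bP n d k ^ 4 := by positivity
    have k3 : -(ε * Z.trace) ≤ 5 * ((d : ℝ) * (d + 1)) * (sR n : ℝ) ^ 384 := by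
      have := (abs_le.1 h7).1
      linarith
    have e' : (ε * Z.trace) * (ε * (Z ^ 5).trace - ε * (Z ^ 3).trace) =
        (-(ε * Z.trace)) * (ε * (Z ^ 3).trace - ε * (Z ^ 5).trace) := by ring
    rw [e']
    exact (mul_le_mul_of_nonneg_left k1 (by linarith)).trans (mul_le_mul_of_nonneg_right k3 k2)

/-- the upper bound for the mean increment of `T₄` -/
theorem T4_upper (hσ : 2000 ≤ sR n) (E : EnvA n d k F Zp Zm forb) (hs : Sgn Zp Zm ε Z) {a1 : ℝ}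
    (ha : 0 ≤ a1)
    (ha1 : 2 * (bP n d k ^ 4 + vP n d k * (bP n d k ^ 2 * wP n d k)) + 2 * sP n d k ^ 2 ≤ a1 ^ 2)
    {p τ : ℝ} (hp : 0 ≤ p) (hx : ε * Z.trace ≤ p)
    (hτ : -∑ q ∈ adm F forb Zp Zm, hA n d k F forb Zp Zm q.1 q.2 * rh Z 3 q.1 q.2 ≤ τ) :
    ∑ q ∈ adm F forb Zp Zm, (1 - hA n d k F forb Zp Zm q.1 q.2) *
      ((upd Z q.1 q.2 ^ 4).trace - (Z ^ 4).trace) ≤
    8 * (p * (bP n d k ^ 5 + bP n d k * tP n d k ^ 2) +
      5 * ((d : ℝ) * (d + 1)) * (sR n : ℝ) ^ 384 * (bP n d k * tP n d k ^ 2 + bP n d k ^ 4)) +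
    8 * ((sR n : ℝ) ^ 683 * bP n d k ^ 4 + tP n d k ^ 2 * tP n d k ^ 2) +
    4 * (2 * (3 * ((d : ℝ) * (d + 1)) * (sR n : ℝ) ^ 1000) ^ 2 +
      2 * (5 * ((d : ℝ) * (d + 1)) * (sR n : ℝ) ^ 384) ^ 2) + 8 * τ +
    err4 (bP n d k) (tP n d k) (sP n d k) (vP n d k) (wP n d k) (bP n d k ^ 2) a1
      (eP n d k) (HP n d k) := by
  have hd := E.d3
  have hε := hs.sq
  have c := E.oneA hs
  have hb := bP_nonneg n d k
  have ht := tP_nonneg n d k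
  have hN := Nk_pos (by omega) E.k_lt
  have hT2 : 0 ≤ (Z ^ 2).trace := by
    have := Mat.trace_pow_even_nonneg c.symm 1
    simpa using this
  have hT4 : 0 ≤ (Z ^ 4).trace := by
    have := Mat.trace_pow_even_nonneg c.symm 2
    simpa using this
  have hmean := (Ctl.ct c.ctl ha ha1).T4_mean (h := hA n d k F forb Zp Zm) (adm_subset F forb Zp Zm)
    (adm_ok Zp Zm hs) (fun q _ => abs_hA_le E q.1 q.2) (eP_nonneg n d k) (HP_nonneg n d k)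
    (card_compl_le E (by omega)) (sum_hA_sq_le E _)
  have h1 := (abs_le.1 hmean).2
  -- the sum with `+2`
  have h2 : ∑ q ∈ adm F forb Zp Zm, (1 - hA n d k F forb Zp Zm q.1 q.2) *
      ((upd Z q.1 q.2 ^ 4).trace - (Z ^ 4).trace) ≤
      ∑ q ∈ adm F forb Zp Zm, (1 - hA n d k F forb Zp Zm q.1 q.2) *
      ((upd Z q.1 q.2 ^ 4).trace - (Z ^ 4).trace + 2) := by
    refine Finset.sum_le_sum fun q _ => mul_le_mul_of_nonneg_left (by linarith) ?_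
    exact weight_nonneg E q.1 q.2
  -- T₁ (T₅ - T₃)
  have h3 : Z.trace * ((Z ^ 5).trace - (Z ^ 3).trace) ≤
      p * (bP n d k ^ 5 + bP n d k * tP n d k ^ 2) +
      5 * ((d : ℝ) * (d + 1)) * (sR n : ℝ) ^ 384 * (bP n d k * tP n d k ^ 2 + bP n d k ^ 4) := by
    have n1 : 0 ≤ p * (bP n d k ^ 5 + bP n d k * tP n d k ^ 2) := by positivity
    have n2 : 0 ≤ 5 * ((d : ℝ) * (d + 1)) * (sR n : ℝ) ^ 384 * (bP n d k * tP n d k ^ 2 + bP n d k ^ 4) := by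
      positivity
    rcases T1T5_le hσ hd hε c hx with h | h <;> linarith
  -- D (T₄ - T₂)
  have h4 : ((Z ^ 2).trace - F.card) * ((Z ^ 4).trace - (Z ^ 2).trace) ≤
      (sR n : ℝ) ^ 683 * bP n d k ^ 4 + tP n d k ^ 2 * tP n d k ^ 2 := by
    rw [E.card]
    have k1 := (abs_le.1 c.dD).2
    have k2 := tD_nonpos hσ hd E.k_lt.le
    have k3 : (Z ^ 2).trace - Nk n d k ≤ (sR n : ℝ) ^ 683 := by linarith
    have k4 : Nk n d k ≤ tP n d k ^ 2 := by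
      rw [tP_sq hN]; linarith
    have k5 := c.T2
    have k6 := c.T4
    have e : ((Z ^ 2).trace - Nk n d k) * ((Z ^ 4).trace - (Z ^ 2).trace) =
        ((Z ^ 2).trace - Nk n d k) * (Z ^ 4).trace + (Nk n d k - (Z ^ 2).trace) * (Z ^ 2).trace := by
      ring
    rw [e]
    have k7 : (0 : ℝ) ≤ (sR n : ℝ) ^ 683 := by positivity
    refine add_le_add ?_ ?_
    · exact (mul_le_mul_of_nonneg_right k3 hT4).trans (mul_le_mul_of_nonneg_left k6 k7)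
    · have k8 : (Nk n d k - (Z ^ 2).trace) * (Z ^ 2).trace ≤ Nk n d k * (Z ^ 2).trace :=
        mul_le_mul_of_nonneg_right (by linarith) hT2
      exact k8.trans (mul_le_mul k4 k5 hT2 (sq_nonneg _))
  -- (T₃ - T₁)²
  have h5 : ((Z ^ 3).trace - Z.trace) ^ 2 ≤ 2 * (3 * ((d : ℝ) * (d + 1)) * (sR n : ℝ) ^ 1000) ^ 2 +
      2 * (5 * ((d : ℝ) * (d + 1)) * (sR n : ℝ) ^ 384) ^ 2 := by
    have k1 := abs_T3_le hσ hd c
    have k2 := abs_T1_le hσ hd c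
    rw [abs_eps hε] at k1 k2
    have k3 := sq_le_sq' (abs_le.1 k1).1 (abs_le.1 k1).2
    have k4 := sq_le_sq' (abs_le.1 k2).1 (abs_le.1 k2).2
    nlinarith [sq_nonneg ((Z ^ 3).trace + Z.trace)]
  linarith

end Vale.Agent.P049.TS.T34
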